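import Vale.Agent.P292.A.Defs2

/-! P292 A/Act (TASK; helper names start with `act_`). Linear changes of variables. `ac_mul`: `φ (ψ (b j)) = ∑ i, b.repr (ψ (b j)) i • φ (b i)`, `Finset.sum_comm`. `aeval_cmp`: `MvPolynomial.comp_aeval_apply`, `map_ac`. `cmp_hom`: `MvPolynomial.IsHomogeneous.aeval` with linear forms. `ac_ad`: expand `n = ∑ i, b.repr n i • b i`. -/

noncomputable section

namespace Vale.Agent.P292

open Vale.Agent.P271

variable {g : Type} [LieRing g] [LieAlgebra ℂ g] {r : ℕ} {W : Type} [Field W] [Algebra ℂ W]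

variable (b : Module.Basis (Fin (r + 1)) ℂ g)

variable {R R' : Type} [CommRing R] [Algebra ℂ R] [CommRing R'] [Algebra ℂ R']

theorem map_ac (f : R →ₐ[ℂ] R') (φ : Module.End ℂ g) (x : Fin (r + 1) → R) :
    f ∘ ac b φ x = ac b φ (f ∘ x) := by
  funext k
  simp only [Function.comp_apply, ac, map_sum, map_mul, AlgHom.commutes]

theorem ac_one (x : Fin (r + 1) → R) : ac b 1 x = x := by
  funext k
  simp only [ac, Module.End.one_apply, Module.Basis.repr_self]
  rw [Finset.sum_eq_single k]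
  · simp
  · intro j _ hj
    simp [Finsupp.single_eq_of_ne hj.symm]
  · simp

theorem ac_zero (x : Fin (r + 1) → R) : ac b 0 x = 0 := by
  funext k
  simp [ac]

theorem ac_mul (φ ψ : Module.End ℂ g) (x : Fin (r + 1) → R) :
    ac b (φ * ψ) x = ac b φ (ac b ψ x) := by
  funext k
  have h : ∀ j, b.repr ((φ * ψ) (b j)) k = ∑ i, b.repr (φ (b i)) k * b.repr (ψ (b j)) i := by
    intro j
    rw [Module.End.mul_apply]
    conv_lhs => rw [← b.sum_repr (ψ (b j))]
    simp only [map_sum, map_smul, Finsupp.coe_finsetSum, Finset.sum_apply, Finsupp.smul_apply,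
      smul_eq_mul, mul_comm]
  simp only [ac, h, map_sum, map_mul, Finset.sum_mul, Finset.mul_sum, mul_assoc]
  exact Finset.sum_comm

theorem ac_sum {ι : Type} (s : Finset ι) (a : ι → ℂ) (φ : ι → Module.End ℂ g)
    (x : Fin (r + 1) → R) : ac b (∑ i ∈ s, a i • φ i) x = ∑ i ∈ s, a i • ac b (φ i) x := by
  funext k
  simp only [ac, LinearMap.sum_apply, LinearMap.smul_apply, map_sum, map_smul,
    Finsupp.coe_finsetSum, Finset.sum_apply, Finsupp.smul_apply, smul_eq_mul, map_mul,
    Pi.smul_apply]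
  simp only [Algebra.smul_def, Finset.sum_mul, Finset.mul_sum, mul_assoc]
  exact Finset.sum_comm

theorem ac_self (φ : Module.End ℂ g) (w : Fin (r + 1) → ℂ) :
    ac b φ w = b.equivFun (φ (b.equivFun.symm w)) := by
  funext k
  simp only [ac, Module.Basis.equivFun_symm_apply, map_sum, map_smul, Finset.sum_apply,
    Pi.smul_apply, Module.Basis.equivFun_apply, smul_eq_mul, Algebra.algebraMap_self,
    RingHom.id_apply, mul_comm]

theorem ac_ad (n : g) (x : Fin (r + 1) → R) :
    ac b (LieAlgebra.ad ℂ g n) x = ∑ i, b.repr n i • lb b (Pi.single i 1) x := by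
  funext k
  have h : ∀ j, b.repr (LieAlgebra.ad ℂ g n (b j)) k =
      ∑ i, b.repr n i * b.repr ⁅b i, b j⁆ k := by
    intro j
    conv_lhs => rw [← b.sum_repr n]
    simp only [map_sum, map_smul, LinearMap.sum_apply, LinearMap.smul_apply,
      Finsupp.coe_finsetSum, Finset.sum_apply, Finsupp.smul_apply, smul_eq_mul,
      LieAlgebra.ad_apply]
  have h2 : ∀ i, lb b (Pi.single i 1) x k =
      ∑ j, algebraMap ℂ R (b.repr ⁅b i, b j⁆ k) * x j := by
    intro i
    rw [lb, Finset.sum_eq_single i]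
    · simp only [Pi.single_eq_same, one_mul]
      simp only [mul_comm]
    · intro l _ hl
      simp only [Pi.single_eq_of_ne hl, zero_mul, Finset.sum_const_zero]
    · simp
  simp only [ac, h, h2, Finset.sum_apply, Pi.smul_apply]
  simp only [Algebra.smul_def, map_sum, map_mul, Finset.sum_mul, Finset.mul_sum, mul_assoc]
  exact Finset.sum_comm

theorem aeval_cmp (φ : Module.End ℂ g) (x : Fin (r + 1) → R) (P : MvPolynomial (Fin (r + 1)) ℂ) :
    MvPolynomial.aeval x (cmp b φ P) = MvPolynomial.aeval (ac b φ x) P := by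
  have h := map_ac b (MvPolynomial.aeval x : MvPolynomial (Fin (r + 1)) ℂ →ₐ[ℂ] R) φ
    MvPolynomial.X
  have h2 : (MvPolynomial.aeval x : MvPolynomial (Fin (r + 1)) ℂ →ₐ[ℂ] R) ∘ MvPolynomial.X = x :=
    funext fun i => MvPolynomial.aeval_X x i
  rw [h2] at h
  rw [cmp, MvPolynomial.comp_aeval_apply, ← h]
  rfl

theorem cmp_hom (φ : Module.End ℂ g) {P : MvPolynomial (Fin (r + 1)) ℂ} {d : ℕ}
    (hP : P.IsHomogeneous d) : (cmp b φ P).IsHomogeneous d := by
  have h := hP.aeval
    (ac b φ (MvPolynomial.X : Fin (r + 1) → MvPolynomial (Fin (r + 1)) ℂ)) (n := 1) fun k =>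
      MvPolynomial.IsHomogeneous.sum _ _ _ fun j _ =>
        (MvPolynomial.isHomogeneous_X ℂ j).C_mul _
  rwa [one_mul] at h

theorem Pres.mul {μ : Fin (r + 1) → W} {φ ψ : Module.End ℂ g} (h : Pres b μ φ)
    (h' : Pres b μ ψ) : Pres b μ (φ * ψ) := by
  intro P hP
  rw [ac_mul, ← aeval_cmp]
  refine h' _ ?_
  rw [aeval_cmp]
  exact h P hP


end Vale.Agent.P292
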