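import Vale.Agent.P292.A.Defs2

/-! P292 A/Bas (TASK; helper names start with `bas_`). Formal properties of `lb`, `kb`, `Ex`.
Unfold, `map_sum`, `Finset.sum_comm`, `Algebra.smul_def`, `lie_skew`, `LieModule.traceForm_comm`. `ex_iff_single`: `w = ∑ j, w j • Pi.single j 1`, both sides are `R`-linear in `w` (`lb_sum`, `kb_sum`). `Ex.map`, `Ex.of_map`: `ex_iff_single`, `f ∘ Pi.single j 1 = Pi.single j 1`. -/

noncomputable section

namespace Vale.Agent.P292

open Vale.Agent.P271

variable {g : Type} [LieRing g] [LieAlgebra ℂ g] {r : ℕ} {W : Type} [Field W] [Algebra ℂ W]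

variable (b : Module.Basis (Fin (r + 1)) ℂ g)

variable {R R' : Type} [CommRing R] [Algebra ℂ R] [CommRing R'] [Algebra ℂ R']

omit [Algebra ℂ R] in
theorem bas_sum {ι : Type} (s : Finset ι) (x : Fin (r + 1) → R) (a : ι → R)
    (y : ι → Fin (r + 1) → R) (c : Fin (r + 1) → Fin (r + 1) → R) :
    ∑ i, ∑ j, x i * (∑ l ∈ s, a l • y l) j * c i j = ∑ l ∈ s, a l * ∑ i, ∑ j, x i * y l j * c i j := by
  simp only [Finset.sum_apply, Pi.smul_apply, smul_eq_mul, Finset.mul_sum, Finset.sum_mul]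
  refine (Finset.sum_congr rfl fun i _ => Finset.sum_comm).trans (Finset.sum_comm.trans ?_)
  refine Finset.sum_congr rfl fun l _ => Finset.sum_congr rfl fun i _ =>
    Finset.sum_congr rfl fun j _ => ?_
  ring

theorem bas_single (f : R →ₐ[ℂ] R') (j : Fin (r + 1)) :
    f ∘ (Pi.single j 1 : Fin (r + 1) → R) = Pi.single j 1 := by
  funext k
  rw [Function.comp_apply, Pi.apply_single (fun _ => f) (fun _ => map_zero f), map_one]

theorem bas_smul (f : R →ₐ[ℂ] R') (a : R) (x : Fin (r + 1) → R) : f ∘ (a • x) = f a • (f ∘ x) :=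
  funext fun k => map_mul f a (x k)

theorem map_lb (f : R →ₐ[ℂ] R') (x y : Fin (r + 1) → R) :
    f ∘ lb b x y = lb b (f ∘ x) (f ∘ y) := by
  funext k
  simp only [Function.comp_apply, lb, map_sum, map_mul, AlgHom.commutes]

theorem map_kb (f : R →ₐ[ℂ] R') (x y : Fin (r + 1) → R) :
    f (kb b x y) = kb b (f ∘ x) (f ∘ y) := by
  simp only [Function.comp_apply, kb, map_sum, map_mul, AlgHom.commutes]

theorem lb_sum {ι : Type} (s : Finset ι) (x : Fin (r + 1) → R) (a : ι → R)
    (y : ι → Fin (r + 1) → R) : lb b x (∑ i ∈ s, a i • y i) = ∑ i ∈ s, a i • lb b x (y i) := by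
  funext k
  rw [Finset.sum_apply]
  exact bas_sum s x a y _

theorem kb_sum {ι : Type} (s : Finset ι) (x : Fin (r + 1) → R) (a : ι → R)
    (y : ι → Fin (r + 1) → R) : kb b x (∑ i ∈ s, a i • y i) = ∑ i ∈ s, a i * kb b x (y i) := by
  exact bas_sum s x a y _

theorem ex_iff_single {c : ℂ} {x : Fin (r + 1) → R} : Ex b c x ↔ ∀ j,
    lb b x (lb b x (Pi.single j 1)) = (algebraMap ℂ R c * kb b x (Pi.single j 1)) • x := by
  refine ⟨fun h j => h _, fun h w => ?_⟩
  have e : w = ∑ j, w j • (Pi.single j 1 : Fin (r + 1) → R) := pi_eq_sum_univ' w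
  rw [e, lb_sum, lb_sum, kb_sum, Finset.mul_sum, Finset.sum_smul]
  refine Finset.sum_congr rfl fun j _ => ?_
  rw [h, smul_smul, mul_left_comm]

theorem Ex.map {c : ℂ} {x : Fin (r + 1) → R} (h : Ex b c x) (f : R →ₐ[ℂ] R') :
    Ex b c (f ∘ x) := by
  refine (ex_iff_single b).2 fun j => ?_
  have k := congrArg (fun v => f ∘ v) (h (Pi.single j 1))
  simp only [map_lb, bas_smul, map_mul, map_kb, AlgHom.commutes, bas_single] at k
  exact k

theorem Ex.of_map {c : ℂ} {x : Fin (r + 1) → R} (f : R →ₐ[ℂ] R') (hf : Function.Injective f)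
    (h : Ex b c (f ∘ x)) : Ex b c x := by
  refine (ex_iff_single b).2 fun j => hf.comp_left ?_
  change f ∘ _ = f ∘ _
  simp only [map_lb, bas_smul, map_mul, map_kb, AlgHom.commutes, bas_single]
  exact h _

theorem kb_symm (x y : Fin (r + 1) → W) : kb b x y = kb b y x := by
  rw [kb, kb, Finset.sum_comm]
  refine Finset.sum_congr rfl fun i _ => Finset.sum_congr rfl fun j _ => ?_
  rw [mul_comm (x j), LieModule.traceForm_comm]

theorem lb_anti (x y : Fin (r + 1) → W) : lb b y x = - lb b x y := by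
  funext k
  rw [Pi.neg_apply, lb, lb, Finset.sum_comm, ← Finset.sum_neg_distrib]
  refine Finset.sum_congr rfl fun i _ => ?_
  rw [← Finset.sum_neg_distrib]
  refine Finset.sum_congr rfl fun j _ => ?_
  rw [← lie_skew, map_neg, Finsupp.neg_apply, map_neg, mul_neg, mul_comm (y j)]

theorem brK_eq (z x : Fin (r + 1) → W) : brK b z x = lb b z x := by
  funext k
  simp only [brK, lb, Algebra.smul_def, mul_comm]

theorem killK_eq (z x : Fin (r + 1) → W) : killK b z x = kb b z x := by
  simp only [killK, kb, Algebra.smul_def, mul_comm]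

end Vale.Agent.P292
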