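import Vale.Agent.P292.A.Mod

/-! P292 A/Conic (TASK; helper names start with `con_`). Work in a model (`exists_mod`, `Mod.ex_iff`); `κ` the Killing form, `k = c κ q₀ q₂ ≠ 0`, `h = ⁅q₀, q₂⁆`.
Use `s = 0, 1, -1, 2, -2` to get the five coefficients of the identity (`linear_combination (norm := module)`):
(0) `q₀` extremal; (1) `⁅q₀, ⁅q₁, w⁆⁆ + ⁅q₁, ⁅q₀, w⁆⁆ = c κ q₀ w • q₁ + c κ q₁ w • q₀`; (2) `⁅q₀, ⁅q₂, w⁆⁆ + ⁅q₂, ⁅q₀, w⁆⁆ + ⁅q₁, ⁅q₁, w⁆⁆ = c κ q₀ w • q₂ + c κ q₁ w • q₁ + c κ q₂ w • q₀`; (3) as (1) with `q₂` for `q₀`; (4) `q₂` extremal.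
`q₀, q₂ ≠ 0`, so (0), (4) give `κ q₀ q₀ = κ q₂ q₂ = 0`; (0) with `w = q₁` plus (1) with `w = q₀` give `κ q₀ q₁ = 0` (`⁅q₀, ⁅q₁, q₀⁆⁆ = -c κ q₀ q₁ • q₀` and `= c κ q₁ q₀ • q₀`), same for `κ q₁ q₂`. `⁅q₀, h⁆ = k q₀`, `⁅q₂, h⁆ = -k q₂`. With `A = ⁅q₀, ⁅q₁, q₂⁆⁆`, `B = ⁅q₂, ⁅q₁, q₀⁆⁆`, `C = ⁅q₁, h⁆`: (1) at `q₂`: `A + C = k q₁`; (3) at `q₀`: `B - C = k q₁`; Jacobi `C = A - B`; so `C = 0`, `B = k q₁`. (1) at `h` (`κ q₀ h = 0`): `k ⁅q₁, q₀⁆ = c κ q₁ h • q₀`, so `⁅q₁, q₀⁆ = a q₀`, `k q₁ = B = -a h`, `l = -a / k`. (2) at `q₀`: `⁅q₁, ⁅q₁, q₀⁆⁆ = 2 k q₀`, so `a ^ 2 = 2 k`. -/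

noncomputable section

namespace Vale.Agent.P292

open Vale.Agent.P271

variable {g : Type} [LieRing g] [LieAlgebra ℂ g] {r : ℕ} {W : Type} [Field W] [Algebra ℂ W]

variable (b : Module.Basis (Fin (r + 1)) ℂ g)

theorem con_abs {L : Type} [LieRing L] [LieAlgebra W L] {c : W} (hc : c ≠ 0) {q₀ q₁ q₂ : L}
    (h : ∀ (s : W) (w : L), ⁅q₀ + s • q₁ + s ^ 2 • q₂, ⁅q₀ + s • q₁ + s ^ 2 • q₂, w⁆⁆ =
      (c * killingForm W L (q₀ + s • q₁ + s ^ 2 • q₂) w) • (q₀ + s • q₁ + s ^ 2 • q₂))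
    (hκ : killingForm W L q₀ q₂ ≠ 0) :
    ∃ l : W, q₁ = l • ⁅q₀, q₂⁆ ∧ l ^ 2 * (c * killingForm W L q₀ q₂) = 2 := by
  have : CharZero W := (RingHom.charZero_iff (algebraMap ℂ W).injective).1 inferInstance
  have hs : ∀ x y, killingForm W L x y = killingForm W L y x := LieModule.traceForm_comm W L L
  have hi : killingForm W L q₀ ⁅q₀, q₂⁆ = 0 := by
    rw [← LieModule.traceForm_apply_lie_apply, lie_self, map_zero, LinearMap.zero_apply]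
  generalize killingForm W L = κ at *
  simp only [add_lie, lie_add, smul_lie, lie_smul, map_add, map_smul, LinearMap.add_apply,
    LinearMap.smul_apply, smul_eq_mul] at h
  have e0 : ∀ w, ⁅q₀, ⁅q₀, w⁆⁆ = (c * κ q₀ w) • q₀ := fun w => by
    linear_combination (norm := module) h 0 w
  have e1 : ∀ w, ⁅q₀, ⁅q₁, w⁆⁆ + ⁅q₁, ⁅q₀, w⁆⁆ = (c * κ q₀ w) • q₁ + (c * κ q₁ w) • q₀ :=
    fun w => by
    linear_combination (norm := module) (2 / 3 : W) • h 1 w - (2 / 3 : W) • h (-1) w -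
      (1 / 12 : W) • h 2 w + (1 / 12 : W) • h (-2) w
  have e2 : ∀ w, ⁅q₀, ⁅q₂, w⁆⁆ + ⁅q₂, ⁅q₀, w⁆⁆ + ⁅q₁, ⁅q₁, w⁆⁆ =
      (c * κ q₀ w) • q₂ + (c * κ q₁ w) • q₁ + (c * κ q₂ w) • q₀ := fun w => by
    linear_combination (norm := module) (2 / 3 : W) • h 1 w + (2 / 3 : W) • h (-1) w -
      (1 / 24 : W) • h 2 w - (1 / 24 : W) • h (-2) w - (5 / 4 : W) • h 0 w
  have e3 : ∀ w, ⁅q₂, ⁅q₁, w⁆⁆ + ⁅q₁, ⁅q₂, w⁆⁆ = (c * κ q₂ w) • q₁ + (c * κ q₁ w) • q₂ :=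
    fun w => by
    linear_combination (norm := module) -(1 / 6 : W) • h 1 w + (1 / 6 : W) • h (-1) w +
      (1 / 12 : W) • h 2 w - (1 / 12 : W) • h (-2) w
  have e4 : ∀ w, ⁅q₂, ⁅q₂, w⁆⁆ = (c * κ q₂ w) • q₂ := fun w => by
    linear_combination (norm := module) -(1 / 6 : W) • h 1 w - (1 / 6 : W) • h (-1) w +
      (1 / 24 : W) • h 2 w + (1 / 24 : W) • h (-2) w + (1 / 4 : W) • h 0 w
  clear h
  have n0 : q₀ ≠ 0 := fun e => hκ (by rw [e, map_zero, LinearMap.zero_apply])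
  have n2 : q₂ ≠ 0 := fun e => hκ (by rw [e, map_zero])
  have k00 : c * κ q₀ q₀ = 0 := by
    have := e0 q₀
    rw [lie_self, lie_zero, eq_comm] at this
    exact (smul_eq_zero.1 this).resolve_right n0
  have k22 : c * κ q₂ q₂ = 0 := by
    have := e4 q₂
    rw [lie_self, lie_zero, eq_comm] at this
    exact (smul_eq_zero.1 this).resolve_right n2
  have k01 : c * κ q₁ q₀ = 0 := by
    have a1 := e1 q₀
    have a2 := e0 q₁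
    rw [lie_self, lie_zero, k00, ← lie_skew q₁ q₀, lie_neg] at a1
    rw [hs q₀ q₁] at a2
    have : (c * κ q₁ q₀) • q₀ = 0 := by
      linear_combination (norm := module) -(1 / 2 : W) • a1 - (1 / 2 : W) • a2
    exact (smul_eq_zero.1 this).resolve_right n0
  have k12 : c * κ q₁ q₂ = 0 := by
    have a1 := e3 q₂
    have a2 := e4 q₁
    rw [lie_self, lie_zero, k22, ← lie_skew q₁ q₂, lie_neg] at a1
    rw [hs q₂ q₁] at a2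
    have : (c * κ q₁ q₂) • q₂ = 0 := by
      linear_combination (norm := module) -(1 / 2 : W) • a1 - (1 / 2 : W) • a2
    exact (smul_eq_zero.1 this).resolve_right n2
  have hk : c * κ q₀ q₂ ≠ 0 := mul_ne_zero hc hκ
  have a1 := e1 q₂
  have a2 := e3 q₀
  have a3 := leibniz_lie q₁ q₀ q₂
  have a4 := e1 ⁅q₀, q₂⁆
  have a5 := e2 q₀
  rw [k12] at a1
  rw [k01, hs q₂ q₀, ← lie_skew q₂ q₀, lie_neg] at a2
  rw [← lie_skew ⁅q₁, q₀⁆ q₂] at a3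
  rw [e0, hi, lie_smul] at a4
  rw [k00, k01, hs q₂ q₀, ← lie_skew q₂ q₀, lie_neg, e0, lie_self, lie_zero] at a5
  generalize c * κ q₀ q₂ = k at *
  have hC : ⁅q₁, ⁅q₀, q₂⁆⁆ = 0 := by
    linear_combination (norm := module) (1 / 3 : W) • a3 + (1 / 3 : W) • a1 - (1 / 3 : W) • a2
  rw [hC] at a2 a4
  obtain ⟨a, ha⟩ : ∃ a : W, ⁅q₁, q₀⁆ = a • q₀ := ⟨k⁻¹ * (c * κ q₁ ⁅q₀, q₂⁆), by
    rw [lie_zero, zero_add, mul_zero, zero_smul, zero_add] at a4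
    rw [mul_smul, ← a4, inv_smul_smul₀ hk]⟩
  rw [ha, lie_smul, ← lie_skew q₂ q₀] at a2
  rw [ha, lie_smul, ha] at a5
  have h2 : (a ^ 2 - 2 * k) • q₀ = 0 := by linear_combination (norm := module) a5
  have h3 := (smul_eq_zero.1 h2).resolve_right n0
  refine ⟨-a / k, ?_, ?_⟩
  · rw [div_eq_inv_mul, mul_smul, eq_inv_smul_iff₀ hk]
    linear_combination (norm := module) -a2
  · field_simp
    linear_combination h3

/-- A2: a conic of extremal elements is determined by its ends up to sign. -/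
theorem conic_mid [LieAlgebra.IsKilling ℂ g] {c : ℂ} (hc : c ≠ 0) {q₀ q₁ q₂ : Fin (r + 1) → W}
    (h : ∀ s : W, Ex b c (q₀ + s • q₁ + s ^ 2 • q₂)) (hκ : kb b q₀ q₂ ≠ 0) :
    ∃ l : W, q₁ = l • lb b q₀ q₂ ∧ l ^ 2 * (algebraMap ℂ W c * kb b q₀ q₂) = 2 := by
  obtain ⟨L, _, _, B, hB⟩ := exists_mod b W
  rw [hB.kil] at hκ ⊢
  obtain ⟨l, h1, h2⟩ := con_abs (c := algebraMap ℂ W c) (q₁ := B.equivFun.symm q₁)
    ((map_ne_zero _).2 hc) (fun s w => by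
      have := (Mod.ex_iff b hB).1 (h s) w
      rwa [map_add, map_add, map_smul, map_smul] at this) hκ
  exact ⟨l, B.equivFun.symm.injective (by rw [map_smul, hB.lie, h1]), h2⟩

end Vale.Agent.P292
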