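import Vale.Agent.P292.Stmt

/-! P292 block A: definitions (no task). -/

noncomputable section

namespace Vale.Agent.P292

variable {g : Type} [LieRing g] [LieAlgebra ℂ g]

/-- The adjoint group: generated by the exponentials of the nilpotent inner derivations. -/
def Inn (g : Type) [LieRing g] [LieAlgebra ℂ g] : Submonoid (Module.End ℂ g) :=
  Submonoid.closure {φ | ∃ (n : g) (m : ℕ), LieAlgebra.ad ℂ g n ^ m = 0 ∧
    φ = ∑ k ∈ Finset.range m, ((k.factorial : ℂ)⁻¹) • LieAlgebra.ad ℂ g n ^ k}

/-- The bracket of two `R`-valued points of `g`, in coordinates for the basis `b`. -/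
def lb {ι R : Type} [Fintype ι] [CommRing R] [Algebra ℂ R] (b : Module.Basis ι ℂ g)
    (x y : ι → R) : ι → R :=
  fun k => ∑ i, ∑ j, x i * y j * algebraMap ℂ R (b.repr ⁅b i, b j⁆ k)

/-- The Killing form of two `R`-valued points of `g`, in coordinates for the basis `b`. -/
def kb {ι R : Type} [Fintype ι] [CommRing R] [Algebra ℂ R] (b : Module.Basis ι ℂ g)
    (x y : ι → R) : R :=
  ∑ i, ∑ j, x i * y j * algebraMap ℂ R (killingForm ℂ g (b i) (b j))

/-- `x` is extremal with the normalised form `c κ`. -/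
def Ex {r : ℕ} (b : Module.Basis (Fin (r + 1)) ℂ g) (c : ℂ) {R : Type} [CommRing R] [Algebra ℂ R]
    (x : Fin (r + 1) → R) : Prop :=
  ∀ w, lb b x (lb b x w) = (algebraMap ℂ R c * kb b x w) • x

end Vale.Agent.P292
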