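import Vale.Agent.P292.A.Defs

/-! P292 A/Defs2 (no task): internal definitions of block A. -/

noncomputable section

namespace Vale.Agent.P292

open Vale.Agent.P271

variable {g : Type} [LieRing g] [LieAlgebra ℂ g] {r : ℕ} {W : Type} [Field W] [Algebra ℂ W]

variable (b : Module.Basis (Fin (r + 1)) ℂ g)

/-- `L` with the basis `B` is the base change of `g` to `W`. -/
structure Mod {L : Type} [LieRing L] [LieAlgebra W L] (B : Module.Basis (Fin (r + 1)) W L) :
    Prop where
  lie : ∀ x y, B.equivFun.symm (lb b x y) = ⁅B.equivFun.symm x, B.equivFun.symm y⁆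
  kil : ∀ x y, kb b x y = killingForm W L (B.equivFun.symm x) (B.equivFun.symm y)

/-- The action of a linear map on `R`-valued points. -/
def ac {R : Type} [CommRing R] [Algebra ℂ R] (φ : Module.End ℂ g) (x : Fin (r + 1) → R) :
    Fin (r + 1) → R :=
  fun k => ∑ j, algebraMap ℂ R (b.repr (φ (b j)) k) * x j

/-- Linear change of variables. -/
def cmp (φ : Module.End ℂ g) (P : MvPolynomial (Fin (r + 1)) ℂ) : MvPolynomial (Fin (r + 1)) ℂ :=
  MvPolynomial.aeval (ac b φ (MvPolynomial.X : Fin (r + 1) → MvPolynomial (Fin (r + 1)) ℂ)) P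

/-- `φ` preserves the equations of `μ`. -/
def Pres (μ : Fin (r + 1) → W) (φ : Module.End ℂ g) : Prop :=
  ∀ P : MvPolynomial (Fin (r + 1)) ℂ, MvPolynomial.aeval μ P = 0 →
    MvPolynomial.aeval (ac b φ μ) P = 0

/-- The point `w` is normal. -/
def NPt (μ : Fin (r + 1) → W) (w : Fin (r + 1) → ℂ) : Prop :=
  ∀ y ∈ IntermediateField.adjoin ℂ {a | ∃ i j, a = μ i / μ j},
    IsIntegral (locRing μ w) y → y ∈ locRing μ w

end Vale.Agent.P292
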