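import Vale.Agent.P292.A.Defs

/-! P292 A/Den (TASK; helper names start with `den_`). Finiteness of the normalisation. `den_abs`: Noether normalisation (`exists_finite_inj_algHom_of_fg`) `B = MvPolynomial (Fin s) ℂ → A`; `L` is finite separable over `FractionRing B`; `IsIntegralClosure.finite B (FractionRing B) L (integralClosure B L)`; a common denominator in `A` of the finitely many generators (`IsLocalization.exist_integer_multiples_of_finset`); an element integral over `A` is integral over `B` (`isIntegral_trans`). `den_sub`: `L = FractionRing A`, `IsFractionRing.liftAlgHom` into `W`, `isIntegral_algHom_iff`. -/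

noncomputable section

namespace Vale.Agent.P292

open Vale.Agent.P271

variable {g : Type} [LieRing g] [LieAlgebra ℂ g] {r : ℕ} {W : Type} [Field W] [Algebra ℂ W]

theorem den_abs (A L : Type) [CommRing A] [IsDomain A] [Algebra ℂ A] [Algebra.FiniteType ℂ A]
    [Field L] [Algebra A L] [IsFractionRing A L] : ∃ d : A, d ≠ 0 ∧ ∀ y : L, IsIntegral A y →
      ∃ a : A, algebraMap A L a = algebraMap A L d * y := by
  classical
  obtain ⟨s, f, hf, hfin⟩ := exists_finite_inj_algHom_of_fg ℂ A
  let : Algebra (MvPolynomial (Fin s) ℂ) A := f.toRingHom.toAlgebra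
  have : Module.Finite (MvPolynomial (Fin s) ℂ) A := hfin
  have : FaithfulSMul (MvPolynomial (Fin s) ℂ) A :=
    (faithfulSMul_iff_algebraMap_injective _ _).2 hf
  let : Algebra (MvPolynomial (Fin s) ℂ) L := ((algebraMap A L).comp f.toRingHom).toAlgebra
  have : IsScalarTower (MvPolynomial (Fin s) ℂ) A L := IsScalarTower.of_algebraMap_eq fun _ => rfl
  have : FaithfulSMul (MvPolynomial (Fin s) ℂ) L :=
    (faithfulSMul_iff_algebraMap_injective _ _).2 ((IsFractionRing.injective A L).comp hf)
  let := FractionRing.liftAlgebra (MvPolynomial (Fin s) ℂ) L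
  have := FractionRing.isScalarTower_liftAlgebra (MvPolynomial (Fin s) ℂ) L
  have : Module.Finite (FractionRing (MvPolynomial (Fin s) ℂ)) L :=
    Module.Finite.of_isLocalization (MvPolynomial (Fin s) ℂ) A (nonZeroDivisors _)
  have : CharZero (FractionRing (MvPolynomial (Fin s) ℂ)) := inferInstance
  have hC := IsIntegralClosure.finite (MvPolynomial (Fin s) ℂ)
    (FractionRing (MvPolynomial (Fin s) ℂ)) L (integralClosure (MvPolynomial (Fin s) ℂ) L)
  obtain ⟨T, hT⟩ := hC.fg_top
  obtain ⟨d, hd⟩ := IsLocalization.exist_integer_multiples (nonZeroDivisors A) T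
    fun c : integralClosure (MvPolynomial (Fin s) ℂ) L => (c : L)
  refine ⟨d, nonZeroDivisors.ne_zero d.2, fun y hy => ?_⟩
  have hy' : IsIntegral (MvPolynomial (Fin s) ℂ) y := isIntegral_trans y hy
  have H : ∀ c : integralClosure (MvPolynomial (Fin s) ℂ) L,
      ∃ a : A, algebraMap A L a = algebraMap A L d * c := fun c => by
    have hc : c ∈ Submodule.span (MvPolynomial (Fin s) ℂ) (T : Set _) := hT ▸ Submodule.mem_top
    induction hc using Submodule.span_induction with
    | mem x hx =>
      obtain ⟨a, ha⟩ := hd x hx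
      exact ⟨a, ha.trans (Algebra.smul_def _ _)⟩
    | zero => exact ⟨0, by simp⟩
    | add x z _ _ h1 h2 =>
      obtain ⟨a, ha⟩ := h1
      obtain ⟨b, hb⟩ := h2
      exact ⟨a + b, by rw [map_add, ha, hb, Subalgebra.coe_add, mul_add]⟩
    | smul p x _ h1 =>
      obtain ⟨a, ha⟩ := h1
      refine ⟨f p * a, ?_⟩
      rw [map_mul, ha, Subalgebra.coe_smul, Algebra.smul_def, mul_left_comm]
      rfl
  exact H ⟨y, hy'⟩

theorem den_sub (A : Subalgebra ℂ W) (hA : A.FG) : ∃ d : A, d ≠ 0 ∧ ∀ y : W,
    (∃ q ∈ A, q ≠ 0 ∧ q * y ∈ A) → IsIntegral A y → (d : W) * y ∈ A := by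
  have : Algebra.FiniteType ℂ A := (Subalgebra.fg_iff_finiteType A).1 hA
  obtain ⟨d, hd, h⟩ := den_abs A (FractionRing A)
  refine ⟨d, hd, fun y ⟨q, hq, hq0, hqy⟩ hy => ?_⟩
  let φ : FractionRing A →ₐ[A] W :=
    IsFractionRing.liftAlgHom (g := Algebra.ofId A W) Subtype.val_injective
  have hφ : ∀ a : A, φ (algebraMap A _ a) = a := fun a => φ.commutes a
  have e : φ (algebraMap A _ ⟨q * y, hqy⟩ / algebraMap A _ ⟨q, hq⟩) = y := by
    rw [map_div₀, hφ, hφ]
    exact mul_div_cancel_left₀ y hq0
  obtain ⟨a, ha⟩ := h _ ((isIntegral_algHom_iff φ φ.toRingHom.injective).1 (e.symm ▸ hy))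
  have h1 := congrArg φ ha
  rw [map_mul, e, hφ, hφ] at h1
  exact h1 ▸ a.2


end Vale.Agent.P292
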