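import Vale.Agent.P292.A.Bas

/-! P292 A/Dual (TASK; helper names start with `dua_`). Nondegeneracy.
The Gram matrix `LinearMap.BilinForm.toMatrix b (killingForm ℂ g)` has nonzero determinant (`LieAlgebra.IsKilling.killingForm_nondegenerate`, `LinearMap.BilinForm.nondegenerate_iff_det_ne_zero`); `m` is its inverse (symmetric). `kb_ne`: `kb b μ w = ∑ i, killingForm (b i) w • μ i`; `Fintype.linearIndependent_iff`, `Basis.ext`. -/

noncomputable section

namespace Vale.Agent.P292

open Vale.Agent.P271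

variable {g : Type} [LieRing g] [LieAlgebra ℂ g] {r : ℕ} {W : Type} [Field W] [Algebra ℂ W]

variable (b : Module.Basis (Fin (r + 1)) ℂ g)

theorem dua_eq (x w : Fin (r + 1) → W) : kb b x w = Matrix.vecMul x
    ((LinearMap.BilinForm.toMatrix b (killingForm ℂ g)).map (algebraMap ℂ W)) ⬝ᵥ w := by
  rw [kb, Finset.sum_comm]
  simp only [dotProduct, Matrix.vecMul, Matrix.map_apply, LinearMap.BilinForm.toMatrix_apply,
    Finset.sum_mul]
  exact Finset.sum_congr rfl fun i _ => Finset.sum_congr rfl fun j _ => by ring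

/-- Nondegeneracy over `W`: dual coordinates. -/
theorem kb_dual [LieAlgebra.IsKilling ℂ g] : ∃ m : Fin (r + 1) → Fin (r + 1) → ℂ,
    (∀ φ w : Fin (r + 1) → W, kb b (fun i => ∑ j, algebraMap ℂ W (m i j) * φ j) w = φ ⬝ᵥ w) ∧
      ∀ x : Fin (r + 1) → W, (∀ w, kb b x w = 0) → x = 0 := by
  have hd : IsUnit (LinearMap.BilinForm.toMatrix b (killingForm ℂ g)).det :=
    ((LinearMap.BilinForm.nondegenerate_iff_det_ne_zero b).1
      (LieAlgebra.IsKilling.killingForm_nondegenerate ℂ g)).isUnit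
  simp only [dua_eq]
  generalize LinearMap.BilinForm.toMatrix b (killingForm ℂ g) = G at hd
  refine ⟨fun i j => G⁻¹ j i, fun φ w => ?_, fun x hx => ?_⟩
  · have h1 : (fun i => ∑ j, algebraMap ℂ W (G⁻¹ j i) * φ j) =
        Matrix.vecMul φ (G⁻¹.map (algebraMap ℂ W)) := by
      funext i
      simp only [dotProduct, Matrix.vecMul, Matrix.map_apply, mul_comm]
    rw [h1, Matrix.vecMul_vecMul, ← Matrix.map_mul, Matrix.nonsing_inv_mul G hd,
      Matrix.map_one _ (map_zero _) (map_one _), Matrix.vecMul_one]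
  · have h1 := dotProduct_eq_zero _ hx
    have h2 := congrArg (fun y => Matrix.vecMul y (G⁻¹.map (algebraMap ℂ W))) h1
    simp only [Matrix.zero_vecMul] at h2
    rwa [Matrix.vecMul_vecMul, ← Matrix.map_mul, Matrix.mul_nonsing_inv G hd,
      Matrix.map_one _ (map_zero _) (map_one _), Matrix.vecMul_one] at h2

theorem kb_const (μ : Fin (r + 1) → W) (v : g) :
    kb b μ (algebraMap ℂ W ∘ b.equivFun v) = ∑ i, killingForm ℂ g (b i) v • μ i := by
  refine Finset.sum_congr rfl fun i _ => ?_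
  conv_rhs => rw [← b.sum_equivFun v, map_sum, Finset.sum_smul]
  refine Finset.sum_congr rfl fun j _ => ?_
  rw [map_smul, smul_eq_mul, Algebra.smul_def, map_mul, Function.comp_apply]
  ring

theorem kb_ne [LieAlgebra.IsKilling ℂ g] {μ : Fin (r + 1) → W} (hμ : LinearIndependent ℂ μ)
    {v : g} (hv : v ≠ 0) : kb b μ (algebraMap ℂ W ∘ b.equivFun v) ≠ 0 := by
  rw [kb_const]
  intro h
  have h1 := Fintype.linearIndependent_iff.1 hμ _ h
  have h2 : (killingForm ℂ g).flip v = 0 := b.ext fun i => h1 i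
  exact hv ((LieAlgebra.IsKilling.killingForm_nondegenerate ℂ g).2 v fun x =>
    LinearMap.congr_fun h2 x)


end Vale.Agent.P292
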