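import Vale.Agent.P292.A.Den
import Vale.Agent.P271.S.Pts

/-! P292 A/ExN (TASK; helper names start with `exn_`). `μ l ≠ 0`, `A = chartRing μ l`, `d` from `den_sub`; a point `φ : A →ₐ[ℂ] ℂ` with `φ d ≠ 0` (Nullstellensatz, see P271/S/Reg; or a point of `Algebra.adjoin ℂ (insert d⁻¹ ..)` restricted to `A`), `w i = φ (chartX μ l i)`, `onX_of_pt`, `mem_locRing_iff`. For `y` in the field: `y = p / q` with `p, q ∈ A` (the field lies in `IntermediateField.adjoin ℂ (range fun i => μ i / μ l)`, `IntermediateField.mem_adjoin_iff_div`). `exn_clear`: `s` a common denominator of the coefficients of a monic equation `p` (product over the finite support); `(p.map val).scaleRoots s` is monic with coefficients in `A` (`Polynomial.lifts_and_degree_eq_and_monic`, `Polynomial.lifts_iff_coeff_lifts`, `Polynomial.scaleRoots_eval₂_eq_zero`). Then `d * (s * y) ∈ A`. -/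

noncomputable section

namespace Vale.Agent.P292

open Vale.Agent.P271

variable {g : Type} [LieRing g] [LieAlgebra ℂ g] {r : ℕ} {W : Type} [Field W] [Algebra ℂ W]

theorem exn_clear {A O : Subalgebra ℂ W} (φ : A →ₐ[ℂ] ℂ)
    (h : ∀ a ∈ O, ∃ s : A, φ s ≠ 0 ∧ (s : W) * a ∈ A) {y : W} (hy : IsIntegral O y) :
    ∃ s : A, φ s ≠ 0 ∧ IsIntegral A ((s : W) * y) := by
  obtain ⟨p, hp, h0⟩ := hy
  choose f hf hf' using fun i => h _ (p.coeff i).2
  obtain ⟨s, hs, hs'⟩ : ∃ s : A, φ s ≠ 0 ∧ ∀ i, (p.coeff i : W) * s ∈ A := by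
    refine ⟨∏ i ∈ p.support, f i, ?_, fun i => ?_⟩
    · rw [map_prod]
      exact Finset.prod_ne_zero_iff.2 fun i _ => hf i
    · by_cases hi : i ∈ p.support
      · rw [← Finset.mul_prod_erase _ _ hi, MulMemClass.coe_mul, ← mul_assoc, mul_comm _ (f i : W)]
        exact mul_mem (hf' i) (Subtype.property _)
      · rw [Polynomial.notMem_support_iff.1 hi, ZeroMemClass.coe_zero, zero_mul]
        exact zero_mem _
  have hq : (p.map (algebraMap O W)).Monic := hp.map _
  have h1 : (p.map (algebraMap O W)).scaleRoots (s : W) ∈ Polynomial.lifts (algebraMap A W) := by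
    rw [Polynomial.lifts_iff_coeff_lifts]
    intro i
    rw [Polynomial.coeff_scaleRoots]
    rcases lt_trichotomy i (p.map (algebraMap O W)).natDegree with hi | rfl | hi
    · obtain ⟨k, hk⟩ := Nat.exists_eq_succ_of_ne_zero (Nat.sub_pos_of_lt hi).ne'
      rw [hk, pow_succ', ← mul_assoc, Polynomial.coeff_map]
      exact ⟨⟨_, mul_mem (hs' i) (pow_mem s.2 k)⟩, rfl⟩
    · rw [hq.coeff_natDegree, Nat.sub_self, pow_zero, mul_one]
      exact ⟨1, map_one _⟩
    · rw [Polynomial.coeff_eq_zero_of_natDegree_lt hi, zero_mul]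
      exact ⟨0, map_zero _⟩
  obtain ⟨q, h2, -, h3⟩ := Polynomial.lifts_and_degree_eq_and_monic h1
    ((Polynomial.monic_scaleRoots_iff _).2 hq)
  refine ⟨s, hs, q, h3, ?_⟩
  rw [Polynomial.eval₂_eq_eval_map, h2, Polynomial.scaleRoots_eval_mul,
    ← Polynomial.eval₂_eq_eval_map, h0, mul_zero]

/-- Some point of a projective variety is normal. -/
theorem exists_normal {μ : Fin (r + 1) → W} (h0 : μ ≠ 0) : ∃ w, OnX μ w ∧
    ∀ y ∈ IntermediateField.adjoin ℂ {a | ∃ i j, a = μ i / μ j},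
      IsIntegral (locRing μ w) y → y ∈ locRing μ w := by
  obtain ⟨l, hl⟩ := Function.ne_iff.1 h0
  replace hl : μ l ≠ 0 := hl
  have hA : (chartRing μ l).FG := (Subalgebra.fg_iff_finiteType _).2 chart_ft
  obtain ⟨d, hd, h1⟩ := den_sub _ hA
  obtain ⟨φ, hφ⟩ : ∃ φ : chartRing μ l →ₐ[ℂ] ℂ, φ d ≠ 0 := by
    by_contra hc
    obtain ⟨m, hm⟩ := reg_rad (g := d) ⊥ fun φ _ => not_not.1 fun h => hc ⟨φ, h⟩
    exact hd (eq_zero_of_pow_eq_zero (Ideal.mem_bot.1 hm))
  refine ⟨_, onX_of_pt hl φ, fun y hy hi => ?_⟩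
  obtain ⟨s, hs, h2⟩ := exn_clear φ (fun a ha => (mem_locRing_iff hl φ).1 ha) hi
  have h3 : IntermediateField.adjoin ℂ {a | ∃ i j, a = μ i / μ j} ≤
      IntermediateField.adjoin ℂ (Set.range fun i => μ i / μ l) := by
    refine IntermediateField.adjoin_le_iff.2 ?_
    rintro _ ⟨i, j, rfl⟩
    rw [← div_div_div_cancel_right₀ hl]
    exact div_mem (IntermediateField.subset_adjoin _ _ ⟨i, rfl⟩)
      (IntermediateField.subset_adjoin _ _ ⟨j, rfl⟩)
  obtain ⟨p, hp, q, hq, rfl⟩ := IntermediateField.mem_adjoin_iff_div.1 (h3 hy)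
  refine (mem_locRing_iff hl φ).2 ⟨d * s, by rw [map_mul]; exact mul_ne_zero hφ hs, ?_⟩
  rw [MulMemClass.coe_mul, mul_assoc]
  refine h1 _ ?_ h2
  by_cases h4 : q = 0
  · refine ⟨1, one_mem _, one_ne_zero, ?_⟩
    rw [h4, div_zero, mul_zero, mul_zero]
    exact zero_mem _
  · refine ⟨q, hq, h4, ?_⟩
    rw [mul_left_comm, mul_div_cancel₀ _ h4]
    exact mul_mem s.2 hp

end Vale.Agent.P292
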