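import Vale.Agent.P292.A.Defs
import Vale.Agent.P292.Fix

/-! P292 block A3: an automorphism of finite order fixes an extremal line. -/

open LieAlgebra Module Polynomial

namespace Vale.Agent.P292

variable {g : Type} [LieRing g] [LieAlgebra ℂ g] {r : ℕ} (b : Module.Basis (Fin (r + 1)) ℂ g)

theorem fix_ex (c : ℂ) (x : g) :
    Ex b c (b.equivFun x) ↔ ∀ w, ⁅x, ⁅x, w⁆⁆ = (c * killingForm ℂ g x w) • x := by
  have h1 : ∀ x y : g, lb b (b.equivFun x) (b.equivFun y) = b.equivFun ⁅x, y⁆ := by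
    intro x y
    ext k
    conv_rhs => rw [← b.sum_repr x, ← b.sum_repr y]
    simp only [lb, Basis.equivFun_apply, sum_lie, lie_sum, smul_lie, lie_smul, map_sum, map_smul,
      Finset.sum_apply, Pi.smul_apply, smul_eq_mul,
      Algebra.algebraMap_self, RingHom.id_apply, Finset.mul_sum]
    rw [Finset.sum_comm]
    exact Finset.sum_congr rfl fun i _ => Finset.sum_congr rfl fun j _ => by ring
  have h2 : ∀ x y : g, kb b (b.equivFun x) (b.equivFun y) = killingForm ℂ g x y := by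
    intro x y
    conv_rhs => rw [← b.sum_repr x, ← b.sum_repr y]
    simp only [kb, Basis.equivFun_apply, map_sum, map_smul, LinearMap.sum_apply,
      LinearMap.smul_apply, smul_eq_mul, Algebra.algebraMap_self, RingHom.id_apply,
      Finset.mul_sum]
    rw [Finset.sum_comm]
    exact Finset.sum_congr rfl fun i _ => Finset.sum_congr rfl fun j _ => by ring
  refine b.equivFun.surjective.forall.trans (forall_congr' fun w => ?_)
  rw [h1, h1, h2, ← map_smul, b.equivFun.injective.eq_iff]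
  rfl

theorem fix_exp [Module.Finite ℂ g] {c : ℂ} (f : g →ₗ[ℂ] ℂ)
    (hf : ∀ x : g, (∀ w, ⁅x, ⁅x, w⁆⁆ = (c * killingForm ℂ g x w) • x) → f x = 0) {y x : g}
    (hy : IsNilpotent (ad ℂ g y)) (hx : ∀ w, ⁅x, ⁅x, w⁆⁆ = (c * killingForm ℂ g x w) • x) :
    f ⁅y, x⁆ = 0 := by
  obtain ⟨k, hk⟩ := hy
  have hk' : ad ℂ g y ^ (k + 2) = 0 := by rw [pow_add, hk, zero_mul]
  have h1 : (∑ i ∈ Finset.range (k + 2),
      monomial i ((i.factorial : ℂ)⁻¹ * f ((ad ℂ g y ^ i) x))) = 0 := by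
    refine Polynomial.funext fun t => ?_
    let _ : LieAlgebra ℚ g :=
      { Module.compHom g (algebraMap ℚ ℂ) with
        lie_smul := fun q u v => lie_smul (algebraMap ℚ ℂ q) u v }
    have h2 : (LieDerivation.ad ℂ g (t • y)).toLinearMap = t • ad ℂ g y := by
      ext w
      simp
    have h3 : (LieDerivation.ad ℂ g (t • y)).toLinearMap ^ (k + 2) = 0 := by
      rw [h2, _root_.smul_pow, hk', smul_zero]
    have h3' : IsNilpotent (LieDerivation.ad ℂ g (t • y)).toLinearMap := ⟨_, h3⟩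
    set φ := LieDerivation.exp _ h3' with hφ
    have h4 := hf (φ x) fun w => by
      obtain ⟨w, rfl⟩ : ∃ v, φ v = w := φ.surjective w
      rw [← φ.map_lie, ← φ.map_lie, hx, killingForm_of_equiv_apply, map_smul]
    rw [hφ, LieDerivation.exp_map_apply, IsNilpotent.exp_eq_sum h3, h2] at h4
    rw [eval_zero, ← h4, eval_finsetSum, LinearMap.sum_apply, map_sum]
    refine Finset.sum_congr rfl fun i _ => ?_
    rw [eval_monomial, _root_.smul_pow]
    show _ = f (algebraMap ℚ ℂ (i.factorial : ℚ)⁻¹ • t ^ i • (ad ℂ g y ^ i) x)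
    simp only [map_smul, smul_eq_mul, map_inv₀, map_natCast]
    ring
  have h2 := congrArg (fun p => coeff p 1) h1
  simpa [coeff_monomial] using h2

/-- A3: an automorphism of prime order fixes an extremal line. -/
theorem fixed_pt [LieAlgebra.IsKilling ℂ g] {c : ℂ} (_hc : c ≠ 0) {e : Fin (r + 1) → ℂ} (he : e ≠ 0)
    (h : Ex b c e) [LieAlgebra.IsSimple ℂ g] (γ : g →ₗ⁅ℂ⁆ g) {p : ℕ} (hp : p.Prime)
    (hγ : ∀ y, γ^[p] y = y) : ∃ (z : Fin (r + 1) → ℂ) (χ : ℂ), z ≠ 0 ∧ Ex b c z ∧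
      γ (b.equivFun.symm z) = χ • b.equivFun.symm z := by
  have : Module.Finite ℂ g := Module.Finite.of_basis b
  obtain ⟨z, χ, h0, h1, h2, h3⟩ := exists_fix_gen γ hp.pos hγ
  obtain ⟨e, rfl⟩ := b.equivFun.surjective e
  rw [fix_ex] at h
  refine ⟨b.equivFun z, χ, by simpa using h0, (fix_ex b c z).2 ?_, by simpa using h1⟩
  obtain ⟨x, hx, hκ⟩ : ∃ x : g, (∀ w, ⁅x, ⁅x, w⁆⁆ = (c * killingForm ℂ g x w) • x) ∧
      killingForm ℂ g z x ≠ 0 := by
    by_contra hcon
    push Not at hcon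
    have h4 := h3 (⨅ (x : g) (_ : ∀ w, ⁅x, ⁅x, w⁆⁆ = (c * killingForm ℂ g x w) • x),
        LinearMap.ker (killingForm ℂ g x))
      (by simpa [Submodule.mem_iInf, LieModule.traceForm_comm ℂ g g _ z] using hcon)
      fun y hy v hv => by
        simp only [Submodule.mem_iInf, LinearMap.mem_ker] at hv ⊢
        intro x hx
        have h5 := fix_exp ((killingForm ℂ g).flip v) hv hy hx
        rw [← LieModule.traceForm_apply_lie_apply, ← lie_skew, map_neg, LinearMap.neg_apply]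
        exact neg_eq_zero.2 h5
    simp only [Submodule.mem_iInf, LinearMap.mem_ker] at h4
    exact he (by rw [(IsKilling.killingForm_nondegenerate ℂ g).1 e fun v => h4 v e h, map_zero])
  have h4 : ∀ u v w : g, killingForm ℂ g u ⁅v, ⁅v, w⁆⁆ = -killingForm ℂ g ⁅v, u⁆ ⁅v, w⁆ := by
    intro u v w
    rw [LieModule.traceForm_apply_lie_apply', neg_neg]
  intro w
  obtain ⟨a, ha⟩ := h2 w
  obtain ⟨a', ha'⟩ := h2 x
  have h5 := h4 x z w
  have h6 := h4 w z x
  have h7 := h4 x z x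
  have h8 := h4 z x z
  rw [LieModule.traceForm_comm ℂ g g ⁅z, w⁆, ← h5, ha, ha', map_smul, map_smul] at h6
  rw [hx, ← lie_skew x z, map_neg, map_neg, LinearMap.neg_apply, neg_neg, ← h7, ha', map_smul,
    map_smul] at h8
  rw [LieModule.traceForm_comm ℂ g g x z, smul_eq_mul, smul_eq_mul] at h6 h8
  rw [ha, LieModule.traceForm_comm ℂ g g z w]
  congr 1
  apply mul_right_cancel₀ hκ
  rw [← h6, ← mul_right_cancel₀ hκ h8]
  ring

/-- A5. -/
theorem eq_one_of_stab [LieAlgebra.IsSimple ℂ g] [Module.Finite ℂ g] (γ : g →ₗ⁅ℂ⁆ g) {p : ℕ}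
    (hp : 0 < p) (hγ : ∀ y, γ^[p] y = y) {z : g} (hz : z ≠ 0)
    (h : ∀ (v : g) (ζ : ℂ), ζ ≠ 1 → γ v = ζ • v → ∃ a : ℂ, ⁅v, z⁆ = a • z) (y : g) : γ y = y := by
  have hζ := Complex.isPrimitiveRoot_exp p hp.ne'
  let J := LieSubalgebra.lieSpan ℂ g {v | ∃ ζ : ℂ, ζ ≠ 1 ∧ γ v = ζ • v}
  have h1 : ∀ v ∈ J, ⁅v, z⁆ ∈ ℂ ∙ z := by
    intro v hv
    induction hv using LieSubalgebra.lieSpan_induction with
    | mem v hv =>
      obtain ⟨ζ, h2, h3⟩ := hv
      obtain ⟨a, ha⟩ := h v ζ h2 h3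
      exact Submodule.mem_span_singleton.2 ⟨a, ha.symm⟩
    | zero => simp
    | add u v _ _ hu hv => rw [add_lie]; exact Submodule.add_mem _ hu hv
    | smul a v _ hv => rw [smul_lie]; exact Submodule.smul_mem _ a hv
    | lie u v _ _ hu hv =>
      obtain ⟨a, ha⟩ := Submodule.mem_span_singleton.1 hu
      obtain ⟨a', ha'⟩ := Submodule.mem_span_singleton.1 hv
      rw [lie_lie, ← ha, ← ha', lie_smul, lie_smul, ← ha, ← ha', smul_comm, sub_self]
      exact Submodule.zero_mem _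
  have h2 : ∀ x, γ x = x → ∀ v ∈ J, ⁅x, v⁆ ∈ J := by
    intro x hx v hv
    induction hv using LieSubalgebra.lieSpan_induction with
    | mem v hv =>
      obtain ⟨ζ, h2, h3⟩ := hv
      exact LieSubalgebra.subset_lieSpan ⟨ζ, h2, by rw [γ.map_lie, hx, h3, lie_smul]⟩
    | zero => simp
    | add u v _ _ hu hv => rw [lie_add]; exact J.add_mem hu hv
    | smul a v _ hv => rw [lie_smul]; exact J.smul_mem a hv
    | lie u v hu hv hu' hv' => rw [leibniz_lie]; exact J.add_mem (J.lie_mem hu' hv) (J.lie_mem hu hv')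
  let I : LieIdeal ℂ g :=
    { J.toSubmodule with
      lie_mem := fun {x v} hv => by
        have h3 := fix_ind γ hp hγ hζ (J.toSubmodule.comap (-ad ℂ g v)) (fun i _ x hx => ?_) x
        · exact (lie_skew x v ▸ h3 : ⁅x, v⁆ ∈ J)
        show -⁅v, x⁆ ∈ J
        rw [lie_skew]
        by_cases h4 : Complex.exp (2 * Real.pi * Complex.I / p) ^ i = 1
        · exact h2 x (by rwa [h4, one_smul] at hx) v hv
        · exact J.lie_mem (LieSubalgebra.subset_lieSpan ⟨_, h4, hx⟩) hv }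
  rcases IsSimple.eq_bot_or_eq_top I with h3 | h3
  · refine fix_ind γ hp hγ hζ (LinearMap.eqLocus (γ : g →ₗ[ℂ] g) LinearMap.id) (fun i _ x hx => ?_) y
    show γ x = x
    by_cases h4 : Complex.exp (2 * Real.pi * Complex.I / p) ^ i = 1
    · rwa [h4, one_smul] at hx
    · have h5 : x ∈ I := LieSubalgebra.subset_lieSpan (R := ℂ) ⟨_, h4, hx⟩
      rw [h3, LieSubmodule.mem_bot] at h5
      rw [h5, map_zero]
  · have h4 : ∀ v, ⁅v, z⁆ ∈ ℂ ∙ z := fun v => h1 v (h3 ▸ LieSubmodule.mem_top v : v ∈ I)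
    let I' : LieIdeal ℂ g :=
      { (ℂ ∙ z) with
        lie_mem := fun {x v} hv => by
          obtain ⟨a, rfl⟩ := Submodule.mem_span_singleton.1 hv
          rw [lie_smul]
          exact Submodule.smul_mem _ a (h4 x) }
    have h5 : z ∈ I' := Submodule.mem_span_singleton_self z
    rcases IsSimple.eq_bot_or_eq_top I' with h6 | h6
    · rw [h6, LieSubmodule.mem_bot] at h5
      exact absurd h5 hz
    · refine absurd ⟨fun u v => ?_⟩ (IsSimple.non_abelian ℂ (L := g))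
      obtain ⟨a, rfl⟩ := Submodule.mem_span_singleton.1 (h6 ▸ LieSubmodule.mem_top u : u ∈ I')
      obtain ⟨a', rfl⟩ := Submodule.mem_span_singleton.1 (h6 ▸ LieSubmodule.mem_top v : v ∈ I')
      simp

end Vale.Agent.P292
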