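import Vale.Agent.P292.A.Pres

/-! P292 A/Inv (helper names start with `inv_`). `Submonoid.closure_induction`. For a generator take `ψ` the exponential of `ad (-n) = -ad n`; both sums are `IsNilpotent.exp` (`IsNilpotent.exp_eq_sum`, rational versus complex scalars), `IsNilpotent.exp_mul_exp_neg_self`, `IsNilpotent.exp_neg_mul_exp_self`. `pres_exp` with the derivation `∑ i, b.repr n i • D i` (`ac_ad`). Products: `Pres.mul`, inverse `ψ' * ψ`. -/

noncomputable section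

namespace Vale.Agent.P292

open Vale.Agent.P271

variable {g : Type} [LieRing g] [LieAlgebra ℂ g] {r : ℕ} {W : Type} [Field W] [Algebra ℂ W]

variable (b : Module.Basis (Fin (r + 1)) ℂ g)

theorem inv_exp {A : Type} [Ring A] [Algebra ℂ A] {a : A} {m : ℕ} (h : a ^ m = 0) :
    (∑ k ∈ Finset.range m, ((k.factorial : ℂ)⁻¹) • (-a) ^ k) *
        (∑ k ∈ Finset.range m, ((k.factorial : ℂ)⁻¹) • a ^ k) = 1 ∧
      (∑ k ∈ Finset.range m, ((k.factorial : ℂ)⁻¹) • a ^ k) *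
        (∑ k ∈ Finset.range m, ((k.factorial : ℂ)⁻¹) • (-a) ^ k) = 1 := by
  let _ : Module ℚ A := Module.compHom A (algebraMap ℚ ℂ)
  have h1 : ∀ x : A, x ^ m = 0 →
      ∑ k ∈ Finset.range m, ((k.factorial : ℂ)⁻¹) • x ^ k = IsNilpotent.exp x := fun x hx => by
    rw [IsNilpotent.exp_eq_sum hx]
    refine Finset.sum_congr rfl fun k _ => ?_
    change _ = algebraMap ℚ ℂ _ • x ^ k
    rw [map_inv₀, map_natCast]
  rw [h1 a h, h1 (-a) (by rw [neg_pow, h, mul_zero])]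
  exact ⟨IsNilpotent.exp_neg_mul_exp_self ⟨m, h⟩, IsNilpotent.exp_mul_exp_neg_self ⟨m, h⟩⟩

theorem inv_gen {μ : Fin (r + 1) → W} (D : Fin (r + 1) → Derivation ℂ W W)
    (hD : ∀ i k, D i (μ k) = lb b (Pi.single i 1) μ k) (n : g) {m : ℕ}
    (h : LieAlgebra.ad ℂ g n ^ m = 0) :
    Pres b μ (∑ k ∈ Finset.range m, ((k.factorial : ℂ)⁻¹) • LieAlgebra.ad ℂ g n ^ k) := by
  refine pres_exp b (∑ i, b.repr n i • D i) h fun k => ?_
  have e := congrFun (map_sum Derivation.coeFnAddMonoidHom (fun i => b.repr n i • D i)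
    Finset.univ) (μ k)
  rw [ac_ad, Finset.sum_apply]
  refine e.trans ?_
  rw [Finset.sum_apply]
  refine Finset.sum_congr rfl fun i _ => ?_
  rw [Pi.smul_apply, ← hD]
  rfl

theorem inn_pres {μ : Fin (r + 1) → W} (D : Fin (r + 1) → Derivation ℂ W W)
    (hD : ∀ i k, D i (μ k) = lb b (Pi.single i 1) μ k) {φ : Module.End ℂ g} (hφ : φ ∈ Inn g) :
    ∃ ψ : Module.End ℂ g, ψ * φ = 1 ∧ φ * ψ = 1 ∧ Pres b μ φ ∧ Pres b μ ψ := by
  induction hφ using Submonoid.closure_induction with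
  | mem φ hφ =>
    obtain ⟨n, m, h, rfl⟩ := hφ
    have h1 := inv_gen b D hD (-n) (m := m) (by rw [map_neg, neg_pow, h, mul_zero])
    rw [map_neg] at h1
    exact ⟨_, (inv_exp h).1, (inv_exp h).2, inv_gen b D hD n h, h1⟩
  | one =>
    have h1 : Pres b μ 1 := fun P hP => by rwa [ac_one]
    exact ⟨1, mul_one _, mul_one _, h1, h1⟩
  | mul φ φ' _ _ ih ih' =>
    obtain ⟨ψ, e1, e2, p1, p2⟩ := ih
    obtain ⟨ψ', e1', e2', p1', p2'⟩ := ih'
    refine ⟨ψ' * ψ, ?_, ?_, p1.mul b p1', p2'.mul b p2⟩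
    · rw [mul_assoc, ← mul_assoc ψ, e1, one_mul, e1']
    · rw [mul_assoc, ← mul_assoc φ', e2', one_mul, e2]

end Vale.Agent.P292
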