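import Vale.Agent.P292.A.Defs

/-! P292 A/Lie (TASK; helper names start with `lie_`). A type synonym of `Fin (r + 1) → ℂ` depending on `cc`, bracket `⁅x, y⁆ k = ∑ i, ∑ j, x i * y j * cc i j k`, basis `Pi.basisFun`. `lie_self` from `h1` (characteristic zero). For the Leibniz rule expand to fourfold sums (or prove the Jacobi identity for trilinear maps on basis vectors, `LinearMap.ext`/`Basis.ext`), use `h1`, `h2`. -/

noncomputable section

namespace Vale.Agent.P292

open Vale.Agent.P271

variable {g : Type} [LieRing g] [LieAlgebra ℂ g] {r : ℕ} {W : Type} [Field W] [Algebra ℂ W]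

/-- The bracket given by structure constants. -/
def lie_br {ι : Type} [Fintype ι] (cc : ι → ι → ι → ℂ) (x y : ι → ℂ) : ι → ℂ :=
  fun k => ∑ i, ∑ j, x i * y j * cc i j k

theorem lie_neg {ι : Type} [Fintype ι] {cc : ι → ι → ι → ℂ} (h1 : ∀ i j k, cc j i k = - cc i j k)
    (x y : ι → ℂ) (k : ι) : lie_br cc y x k = - lie_br cc x y k := by
  rw [lie_br, lie_br, Finset.sum_comm, ← Finset.sum_neg_distrib]
  refine Finset.sum_congr rfl fun i _ => ?_
  rw [← Finset.sum_neg_distrib]
  refine Finset.sum_congr rfl fun j _ => ?_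
  rw [h1 i j]
  ring

theorem lie_tri {ι : Type} [Fintype ι] (cc : ι → ι → ι → ℂ) (x y z : ι → ℂ) (m : ι) :
    lie_br cc x (lie_br cc y z) m =
      ∑ i, ∑ j, ∑ k, x i * y j * z k * ∑ l, cc j k l * cc i l m := by
  simp only [lie_br, Finset.mul_sum, Finset.sum_mul]
  refine Finset.sum_congr rfl fun i _ => ?_
  rw [Finset.sum_comm]
  refine Finset.sum_congr rfl fun j _ => ?_
  rw [Finset.sum_comm]
  exact Finset.sum_congr rfl fun k _ => Finset.sum_congr rfl fun l _ => by ring

theorem lie_jac {ι : Type} [Fintype ι] {cc : ι → ι → ι → ℂ}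
    (h2 : ∀ i j k m, ∑ l, (cc j k l * cc i l m + cc k i l * cc j l m + cc i j l * cc k l m) = 0)
    (x y z : ι → ℂ) (m : ι) : lie_br cc x (lie_br cc y z) m + lie_br cc y (lie_br cc z x) m +
      lie_br cc z (lie_br cc x y) m = 0 := by
  have e1 : lie_br cc y (lie_br cc z x) m =
      ∑ i, ∑ j, ∑ k, y j * z k * x i * ∑ l, cc k i l * cc j l m := by
    rw [lie_tri]
    exact (Finset.sum_congr rfl fun j _ => Finset.sum_comm).trans Finset.sum_comm
  have e2 : lie_br cc z (lie_br cc x y) m =
      ∑ i, ∑ j, ∑ k, z k * x i * y j * ∑ l, cc i j l * cc k l m := by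
    rw [lie_tri]
    exact Finset.sum_comm.trans (Finset.sum_congr rfl fun j _ => Finset.sum_comm)
  rw [e1, e2, lie_tri]
  simp only [← Finset.sum_add_distrib]
  refine Finset.sum_eq_zero fun i _ => Finset.sum_eq_zero fun j _ => Finset.sum_eq_zero fun k _ => ?_
  have h := h2 i j k m
  rw [Finset.sum_add_distrib, Finset.sum_add_distrib] at h
  linear_combination x i * y j * z k * h

/-- A Lie algebra from structure constants. -/
theorem exists_lie (cc : Fin (r + 1) → Fin (r + 1) → Fin (r + 1) → ℂ)
    (h1 : ∀ i j k, cc j i k = - cc i j k)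
    (h2 : ∀ i j k m, ∑ l, (cc j k l * cc i l m + cc k i l * cc j l m + cc i j l * cc k l m) = 0) :
    ∃ (g : Type) (_ : LieRing g) (_ : LieAlgebra ℂ g) (b : Module.Basis (Fin (r + 1)) ℂ g),
      ∀ i j k, b.repr ⁅b i, b j⁆ k = cc i j k := by
  let L : LieRing (Fin (r + 1) → ℂ) :=
    { (inferInstance : AddCommGroup (Fin (r + 1) → ℂ)) with
      bracket := lie_br cc
      add_lie := fun x y z => funext fun k => by
        simp only [lie_br, Pi.add_apply, add_mul, Finset.sum_add_distrib]
      lie_add := fun x y z => funext fun k => by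
        simp only [lie_br, Pi.add_apply, add_mul, mul_add, Finset.sum_add_distrib]
      lie_self := fun x => funext fun k => self_eq_neg.1 (lie_neg h1 x x k)
      leibniz_lie := fun x y z => funext fun m => by
        have e1 := lie_jac h2 x y z m
        have e2 := lie_neg h1 z (lie_br cc x y) m
        have e3 : lie_br cc y (lie_br cc x z) m = - lie_br cc y (lie_br cc z x) m := by
          rw [show lie_br cc x z = fun k => - lie_br cc z x k from funext (lie_neg h1 z x)]
          simp only [lie_br, mul_neg, neg_mul, Finset.sum_neg_distrib]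
        change lie_br cc x (lie_br cc y z) m =
          lie_br cc (lie_br cc x y) z m + lie_br cc y (lie_br cc x z) m
        linear_combination e1 - e2 - e3 }
  let A : @LieAlgebra ℂ (Fin (r + 1) → ℂ) _ L :=
    { (inferInstance : Module ℂ (Fin (r + 1) → ℂ)) with
      lie_smul := fun t x y => funext fun k => by
        change lie_br cc x (t • y) k = t * lie_br cc x y k
        simp only [lie_br, Pi.smul_apply, smul_eq_mul, Finset.mul_sum]
        exact Finset.sum_congr rfl fun i _ => Finset.sum_congr rfl fun j _ => by ring }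
  refine ⟨Fin (r + 1) → ℂ, L, A, Pi.basisFun ℂ _, fun i j k => ?_⟩
  change lie_br cc (Pi.basisFun ℂ _ i) (Pi.basisFun ℂ _ j) k = cc i j k
  simp [lie_br, Pi.single_apply]

end Vale.Agent.P292
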