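import Vale.Agent.P292.A.Act

/-! P292 A/Sig (TASK; helper names start with `sig_`). `sig_ex`: `A = Algebra.adjoin ℂ (range μ)`, `aeval` onto `A` is surjective, `AlgHom.liftOfSurjective` gives `σ₀ : A →ₐ[ℂ] W`, injective by `h'`; extend to the fraction field (`IntermediateField.algebraAdjoinAdjoin.isFractionRing`, scoped instances, `IsFractionRing.liftAlgHom`). `sig_int`: map the monic equation `p` by `f`; `Polynomial.hom_eval₂` for `σ` and for the inclusion of `F`. -/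

noncomputable section

namespace Vale.Agent.P292

open Vale.Agent.P271

variable {g : Type} [LieRing g] [LieAlgebra ℂ g] {r : ℕ} {W : Type} [Field W] [Algebra ℂ W]

theorem sig_mem0 (μ : Fin (r + 1) → W) (P : MvPolynomial (Fin (r + 1)) ℂ) :
    MvPolynomial.aeval μ P ∈ Algebra.adjoin ℂ (Set.range μ) := by
  rw [Algebra.adjoin_range_eq_range_aeval]
  exact ⟨P, rfl⟩

open IntermediateField.algebraAdjoinAdjoin in
theorem sig_ex {μ ν : Fin (r + 1) → W}
    (h : ∀ P : MvPolynomial (Fin (r + 1)) ℂ, MvPolynomial.aeval μ P = 0 → MvPolynomial.aeval ν P = 0)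
    (h' : ∀ P : MvPolynomial (Fin (r + 1)) ℂ, MvPolynomial.aeval ν P = 0 →
      MvPolynomial.aeval μ P = 0) :
    ∃ σ : IntermediateField.adjoin ℂ (Set.range μ) →ₐ[ℂ] W,
      ∀ (P : MvPolynomial (Fin (r + 1)) ℂ) (y : IntermediateField.adjoin ℂ (Set.range μ)),
        (y : W) = MvPolynomial.aeval μ P → σ y = MvPolynomial.aeval ν P := by
  obtain ⟨f, hf⟩ : ∃ f : MvPolynomial (Fin (r + 1)) ℂ →ₐ[ℂ] Algebra.adjoin ℂ (Set.range μ),
      ∀ P, (f P : W) = MvPolynomial.aeval μ P :=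
    ⟨(MvPolynomial.aeval μ).codRestrict _ (sig_mem0 μ), fun _ => rfl⟩
  have hs : Function.Surjective f := by
    rintro ⟨y, hy⟩
    have hy' := hy
    rw [Algebra.adjoin_range_eq_range_aeval] at hy'
    obtain ⟨P, hP⟩ := hy'
    exact ⟨P, Subtype.ext ((hf P).trans hP)⟩
  have hk : RingHom.ker f.toRingHom ≤ RingHom.ker (MvPolynomial.aeval ν).toRingHom := by
    intro P hP
    refine h P ?_
    rw [← hf P, show f P = 0 from hP]
    rfl
  obtain ⟨σ₀, h0⟩ : ∃ σ₀ : Algebra.adjoin ℂ (Set.range μ) →ₐ[ℂ] W,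
      ∀ P, σ₀ (f P) = MvPolynomial.aeval ν P :=
    ⟨AlgHom.liftOfSurjective f hs _ hk, AlgHom.liftOfSurjective_apply f hs _ hk⟩
  have hi : Function.Injective σ₀ := by
    rw [injective_iff_map_eq_zero]
    intro a ha
    obtain ⟨P, rfl⟩ := hs a
    rw [h0] at ha
    exact Subtype.ext ((hf P).trans (h' P ha))
  refine ⟨IsFractionRing.liftAlgHom (K := IntermediateField.adjoin ℂ (Set.range μ)) hi,
    fun P y hy => ?_⟩
  have e : y = algebraMap (Algebra.adjoin ℂ (Set.range μ)) _ (f P) :=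
    Subtype.ext (hy.trans (hf P).symm)
  rw [e, IsFractionRing.liftAlgHom_apply, IsFractionRing.lift_algebraMap]
  exact h0 P

theorem sig_mem (μ : Fin (r + 1) → W) (P : MvPolynomial (Fin (r + 1)) ℂ) :
    MvPolynomial.aeval μ P ∈ IntermediateField.adjoin ℂ (Set.range μ) :=
  IntermediateField.algebra_adjoin_le_adjoin ℂ _ (sig_mem0 μ P)

theorem sig_int {F : IntermediateField ℂ W} (σ : F →ₐ[ℂ] W) {O O' : Subalgebra ℂ W}
    (h : ∀ a ∈ O', ∃ ha : a ∈ F, σ ⟨a, ha⟩ ∈ O) (y : F) (hy : IsIntegral O' (y : W)) :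
    IsIntegral O (σ y) := by
  obtain ⟨p, hm, hp⟩ := hy
  obtain ⟨i, hi⟩ : ∃ i : O' →+* F, ∀ a, (i a : W) = a :=
    ⟨(O'.val.toRingHom).codRestrict F fun a => (h a a.2).1, fun _ => rfl⟩
  obtain ⟨f, hf⟩ : ∃ f : O' →+* O, ∀ a, (f a : W) = σ (i a) := by
    refine ⟨(σ.toRingHom.comp i).codRestrict O fun a => ?_, fun _ => rfl⟩
    obtain ⟨ha, hb⟩ := h a a.2
    have e : i a = ⟨a, ha⟩ := Subtype.ext (hi a)
    show σ (i a) ∈ O
    rwa [e]
  have h1 : p.eval₂ i y = 0 := by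
    apply Subtype.ext
    have h2 := Polynomial.hom_eval₂ p i (algebraMap F W) y
    have h3 : (algebraMap F W).comp i = algebraMap O' W := RingHom.ext hi
    rw [h3] at h2
    exact h2.trans hp
  refine ⟨p.map f, hm.map f, ?_⟩
  have h4 := Polynomial.hom_eval₂ p i σ.toRingHom y
  have h5 : (algebraMap O W).comp f = σ.toRingHom.comp i := RingHom.ext hf
  rw [Polynomial.eval₂_map, h5]
  rw [h1, map_zero] at h4
  exact h4.symm


end Vale.Agent.P292
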