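import Vale.Agent.P292.A.Inv
import Vale.Agent.P292.A.Sig
import Vale.Agent.P271.S.Reg

/-! P292 A/Norm (TASK; helper names start with `nor_`). `nor_on`: `cmp b φ P` is homogeneous and vanishes at `μ`; `ac b φ w ≠ 0` since `ac b ψ (ac b φ w) = w`. `nor_nrm`: `σ` from `sig_ex` with `ν = ac b φ μ` (for `h'`: if `P (φ μ) = 0` then `cmp b φ P` vanishes at `μ`, so at `ac b ψ μ`, and `φ * ψ = 1`). (i) `a ∈ locRing μ (φ w)`, `a Q(μ) = P(μ)` (`nor_rep`, `OnX.aeval_ne`): `a ∈ F`, `σ a * (cmp φ Q)(μ) = (cmp φ P)(μ)`, `(cmp φ Q)(w) ≠ 0`, so `σ a ∈ locRing μ w`. (ii) `K₀ ≤ (K₀.comap σ).map F.val` (`IntermediateField.adjoin_le_iff`; divide numerator and denominator by some `μ l ≠ 0`). (iii) `sig_int`. (iv) if `σ y * Q(μ) = P(μ)`, `Q(w) ≠ 0`, then `y * (cmp ψ Q)(μ) = (cmp ψ P)(μ)` by injectivity of `σ`, and `(cmp ψ Q)(φ w) = Q(w)`.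
`onX_inn`: `inn_pres`, `ac_self`, scalars by `locRing_div` and `eval_div_homog` (`a • v = fun i => v i / a⁻¹`). -/

noncomputable section

namespace Vale.Agent.P292

open Vale.Agent.P271

variable {g : Type} [LieRing g] [LieAlgebra ℂ g] {r : ℕ} {W : Type} [Field W] [Algebra ℂ W]

theorem nor_rep {t : Fin (r + 1) → W} {v : Fin (r + 1) → ℂ} {a : W} (ha : a ∈ locRing t v) :
    ∃ (d : ℕ) (P Q : MvPolynomial (Fin (r + 1)) ℂ), P.IsHomogeneous d ∧ Q.IsHomogeneous d ∧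
      MvPolynomial.eval v Q ≠ 0 ∧ a * MvPolynomial.aeval t Q = MvPolynomial.aeval t P := by
  induction ha using Algebra.adjoin_induction with
  | mem x hx => exact hx
  | algebraMap r =>
    exact ⟨0, MvPolynomial.C r, 1, MvPolynomial.isHomogeneous_C _ r,
      MvPolynomial.isHomogeneous_one _ _, by simp, by simp⟩
  | add x y _ _ hx hy =>
    obtain ⟨d, P, Q, h1, h2, h3, h4⟩ := hx
    obtain ⟨d', P', Q', h1', h2', h3', h4'⟩ := hy
    refine ⟨d + d', P * Q' + Q * P', Q * Q', (h1.mul h2').add (h2.mul h1'), h2.mul h2',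
      by rw [map_mul]; exact mul_ne_zero h3 h3', ?_⟩
    simp only [map_add, map_mul, ← h4, ← h4']
    ring
  | mul x y _ _ hx hy =>
    obtain ⟨d, P, Q, h1, h2, h3, h4⟩ := hx
    obtain ⟨d', P', Q', h1', h2', h3', h4'⟩ := hy
    refine ⟨d + d', P * P', Q * Q', h1.mul h1', h2.mul h2',
      by rw [map_mul]; exact mul_ne_zero h3 h3', ?_⟩
    simp only [map_mul, ← h4, ← h4']
    ring

variable (b : Module.Basis (Fin (r + 1)) ℂ g)

theorem nor_eval (φ : Module.End ℂ g) (w : Fin (r + 1) → ℂ) (P : MvPolynomial (Fin (r + 1)) ℂ) :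
    MvPolynomial.eval w (cmp b φ P) = MvPolynomial.eval (ac b φ w) P :=
  aeval_cmp b φ w P

theorem nor_inv {R : Type} [CommRing R] [Algebra ℂ R] {φ ψ : Module.End ℂ g} (h1 : ψ * φ = 1)
    (x : Fin (r + 1) → R) : ac b ψ (ac b φ x) = x := by
  rw [← ac_mul, h1, ac_one]

theorem nor_on {μ : Fin (r + 1) → W} {φ ψ : Module.End ℂ g} (h1 : ψ * φ = 1) (hφ : Pres b μ φ)
    {w : Fin (r + 1) → ℂ} (hw : OnX μ w) : OnX μ (ac b φ w) := by
  refine ⟨fun h => hw.1 ?_, fun d P hP h0 => ?_⟩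
  · rw [← nor_inv b h1 w, h]
    funext k
    simp [ac]
  · rw [← nor_eval]
    exact hw.2 d _ (cmp_hom b φ hP) ((aeval_cmp b φ μ P).trans (hφ P h0))

theorem nor_nrm {μ : Fin (r + 1) → W} {φ ψ : Module.End ℂ g} (h1 : ψ * φ = 1) (h2 : φ * ψ = 1)
    (hφ : Pres b μ φ) (hψ : Pres b μ ψ) {w : Fin (r + 1) → ℂ} (hw : OnX μ w) (hn : NPt μ w) :
    NPt μ (ac b φ w) := by
  obtain ⟨σ, hσ⟩ := sig_ex (ν := ac b φ μ) hφ fun P hP => by
    have := hψ _ ((aeval_cmp b φ μ P).trans hP)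
    rwa [aeval_cmp, nor_inv b h2] at this
  have hw' := nor_on b h1 hφ hw
  have s1 : ∀ a ∈ locRing μ (ac b φ w), ∃ ha : a ∈ IntermediateField.adjoin ℂ (Set.range μ),
      σ ⟨a, ha⟩ ∈ locRing μ w := fun a ha => by
    obtain ⟨d, P, Q, hP, hQ, h3, h4⟩ := nor_rep ha
    have h5 : a ∈ IntermediateField.adjoin ℂ (Set.range μ) := by
      rw [eq_div_of_mul_eq (hw'.aeval_ne hQ h3) h4]
      exact div_mem (sig_mem μ P) (sig_mem μ Q)
    refine ⟨h5, Algebra.subset_adjoin ⟨d, cmp b φ P, cmp b φ Q, cmp_hom b φ hP, cmp_hom b φ hQ,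
      by rwa [nor_eval], ?_⟩⟩
    rw [aeval_cmp, aeval_cmp, ← hσ Q ⟨_, sig_mem μ Q⟩ rfl, ← map_mul]
    exact hσ P _ h4
  obtain ⟨l, hl⟩ := hw.exists_ne
  have hl' : μ l ≠ 0 := hw.t_ne hl
  have s2 : IntermediateField.adjoin ℂ {a | ∃ i j, a = μ i / μ j} ≤
      ((IntermediateField.adjoin ℂ {a | ∃ i j, a = μ i / μ j}).comap σ).map
        (IntermediateField.adjoin ℂ (Set.range μ)).val := by
    refine IntermediateField.adjoin_le_iff.2 ?_
    rintro _ ⟨i, j, rfl⟩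
    have m : ∀ k, μ k ∈ IntermediateField.adjoin ℂ (Set.range μ) := fun k =>
      IntermediateField.subset_adjoin _ _ ⟨k, rfl⟩
    have e : ∀ k, σ ⟨μ k, m k⟩ = ac b φ μ k := fun k => by
      rw [hσ (MvPolynomial.X k) ⟨μ k, m k⟩ (by rw [MvPolynomial.aeval_X]), MvPolynomial.aeval_X]
    have m' : ∀ k, ac b φ μ k / μ l ∈ IntermediateField.adjoin ℂ {a | ∃ i j, a = μ i / μ j} :=
      fun k => by
        rw [ac, Finset.sum_div]
        refine sum_mem fun j _ => ?_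
        rw [mul_div_assoc]
        exact mul_mem (IntermediateField.algebraMap_mem _ _)
          (IntermediateField.subset_adjoin _ _ ⟨j, l, rfl⟩)
    refine ⟨⟨μ i, m i⟩ / ⟨μ j, m j⟩, ?_, rfl⟩
    change σ _ ∈ IntermediateField.adjoin ℂ {a | ∃ i j, a = μ i / μ j}
    rw [map_div₀, e, e, ← div_div_div_cancel_right₀ hl']
    exact div_mem (m' i) (m' j)
  intro y hy hint
  obtain ⟨y, hy', rfl⟩ := s2 hy
  obtain ⟨d, P, Q, hP, hQ, h3, h4⟩ := nor_rep (hn (σ y) hy' (sig_int σ s1 y hint))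
  have e : ∀ P, σ ⟨_, sig_mem μ (cmp b ψ P)⟩ = MvPolynomial.aeval μ P := fun P => by
    rw [hσ (cmp b ψ P) _ rfl, aeval_cmp, nor_inv b h1]
  rw [← e P, ← e Q, ← map_mul] at h4
  exact Algebra.subset_adjoin ⟨d, cmp b ψ P, cmp b ψ Q, cmp_hom b ψ hP, cmp_hom b ψ hQ,
    by rwa [nor_eval, nor_inv b h1], congrArg Subtype.val (σ.injective h4)⟩

/-- A7: the closure of `μ` is stable under the adjoint group, and so is normality. -/
theorem onX_inn {μ : Fin (r + 1) → W} (D : Fin (r + 1) → Derivation ℂ W W)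
    (hD : ∀ i k, D i (μ k) = lb b (Pi.single i 1) μ k) {φ : Module.End ℂ g} (hφ : φ ∈ Inn g)
    {w : Fin (r + 1) → ℂ} (hw : OnX μ w) {a : ℂ} (ha : a ≠ 0) :
    OnX μ (b.equivFun (a • φ (b.equivFun.symm w))) ∧
      ((∀ y ∈ IntermediateField.adjoin ℂ {a | ∃ i j, a = μ i / μ j},
          IsIntegral (locRing μ w) y → y ∈ locRing μ w) →
        ∀ y ∈ IntermediateField.adjoin ℂ {a | ∃ i j, a = μ i / μ j},
          IsIntegral (locRing μ (b.equivFun (a • φ (b.equivFun.symm w)))) y →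
            y ∈ locRing μ (b.equivFun (a • φ (b.equivFun.symm w)))) := by
  obtain ⟨ψ, h1, h2, h3, h4⟩ := inn_pres b D hD hφ
  have e : b.equivFun (a • φ (b.equivFun.symm w)) = fun i => ac b φ w i / a⁻¹ := by
    rw [map_smul, ← ac_self]
    funext i
    rw [div_inv_eq_mul, mul_comm]
    rfl
  have hw' := nor_on b h1 h3 hw
  rw [e, locRing_div (inv_ne_zero ha)]
  refine ⟨⟨fun h => hw'.1 (funext fun i => ?_), fun d P hP h0 => ?_⟩,
    fun hn => nor_nrm b h1 h2 h3 h4 hw hn⟩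
  · exact (div_eq_zero_iff.1 (congrFun h i)).resolve_right (inv_ne_zero ha)
  · rw [eval_div_homog hP, hw'.2 d P hP h0, zero_div]

end Vale.Agent.P292
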