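import Vale.Agent.P292.A.Bas

/-! P292 A/OnX (TASK; helper names start with `onx_`). `ex_iff_single`; for `j`, `k` the polynomial `lb b X (lb b X e_j) k - (C c * kb b X e_j) * X k` over `R = MvPolynomial (Fin (r + 1)) ℂ` is homogeneous of degree two (`lb`, `kb` of homogeneous vectors of degrees `m`, `n` are homogeneous of degree `m + n`: `IsHomogeneous.sum`, `IsHomogeneous.mul`, `isHomogeneous_C`); `map_lb`, `map_kb` for `aeval μ` and `aeval w` (`MvPolynomial.aeval_eq_eval`). -/

noncomputable section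

namespace Vale.Agent.P292

open Vale.Agent.P271

variable {g : Type} [LieRing g] [LieAlgebra ℂ g] {r : ℕ} {W : Type} [Field W] [Algebra ℂ W]

variable (b : Module.Basis (Fin (r + 1)) ℂ g)

open MvPolynomial in
theorem onx_lb {x y : Fin (r + 1) → MvPolynomial (Fin (r + 1)) ℂ} {m n : ℕ}
    (hx : ∀ i, (x i).IsHomogeneous m) (hy : ∀ i, (y i).IsHomogeneous n) (k : Fin (r + 1)) :
    (lb b x y k).IsHomogeneous (m + n) := by
  unfold lb
  refine IsHomogeneous.sum _ _ _ fun i _ => IsHomogeneous.sum _ _ _ fun j _ => ?_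
  exact ((hx i).mul (hy j)).mul (isHomogeneous_C _ _)

open MvPolynomial in
theorem onx_kb {x y : Fin (r + 1) → MvPolynomial (Fin (r + 1)) ℂ} {m n : ℕ}
    (hx : ∀ i, (x i).IsHomogeneous m) (hy : ∀ i, (y i).IsHomogeneous n) :
    (kb b x y).IsHomogeneous (m + n) := by
  unfold kb
  refine IsHomogeneous.sum _ _ _ fun i _ => IsHomogeneous.sum _ _ _ fun j _ => ?_
  exact ((hx i).mul (hy j)).mul (isHomogeneous_C _ _)

open MvPolynomial in
theorem onx_single (j i : Fin (r + 1)) :
    ((Pi.single j 1 : Fin (r + 1) → MvPolynomial (Fin (r + 1)) ℂ) i).IsHomogeneous 0 := by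
  rw [Pi.single_apply]
  split_ifs
  · exact isHomogeneous_one _ _
  · exact isHomogeneous_zero _ _ _

open MvPolynomial in
theorem onx_aeval {R : Type} [CommRing R] [Algebra ℂ R] (c : ℂ) (x : Fin (r + 1) → R)
    (j k : Fin (r + 1)) :
    aeval x (lb b X (lb b X (Pi.single j 1)) k - C c * kb b X (Pi.single j 1) * X k) =
      lb b x (lb b x (Pi.single j 1)) k - algebraMap ℂ R c * kb b x (Pi.single j 1) * x k := by
  have h1 : (aeval x : MvPolynomial (Fin (r + 1)) ℂ →ₐ[ℂ] R) ∘ X = x := by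
    funext i
    simp
  have h2 : (aeval x : MvPolynomial (Fin (r + 1)) ℂ →ₐ[ℂ] R) ∘ Pi.single j 1 = Pi.single j 1 := by
    funext i
    simp only [Function.comp_apply, Pi.single_apply]
    split_ifs <;> simp
  have h3 := congrFun (map_lb b (aeval x : MvPolynomial (Fin (r + 1)) ℂ →ₐ[ℂ] R) X
    (lb b X (Pi.single j 1))) k
  rw [Function.comp_apply, map_lb, h1, h2] at h3
  rw [map_sub, map_mul, map_mul, h3, map_kb, h1, h2, aeval_C, aeval_X]

/-- Points of the closure of an extremal generic point are extremal. -/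
theorem Ex.onX {c : ℂ} {μ : Fin (r + 1) → W} (h : Ex b c μ) {w : Fin (r + 1) → ℂ}
    (hw : OnX μ w) : Ex b c w := by
  rw [ex_iff_single] at h ⊢
  intro j
  funext k
  have hX : ∀ i, (MvPolynomial.X i : MvPolynomial (Fin (r + 1)) ℂ).IsHomogeneous 1 :=
    fun i => MvPolynomial.isHomogeneous_X _ _
  have hP : (lb b MvPolynomial.X (lb b MvPolynomial.X (Pi.single j 1)) k - MvPolynomial.C c *
      kb b MvPolynomial.X (Pi.single j 1) * MvPolynomial.X k :
      MvPolynomial (Fin (r + 1)) ℂ).IsHomogeneous 2 :=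
    (onx_lb b hX (onx_lb b hX (onx_single j)) k).sub
      (((MvPolynomial.isHomogeneous_C _ c).mul (onx_kb b hX (onx_single j))).mul (hX k))
  have h0 := hw.2 2 _ hP (by rw [onx_aeval, h j, Pi.smul_apply, smul_eq_mul, sub_self])
  rw [← MvPolynomial.aeval_eq_eval, onx_aeval] at h0
  rw [Pi.smul_apply, smul_eq_mul]
  exact sub_eq_zero.1 h0

end Vale.Agent.P292
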