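import Vale.Agent.P292.A.Dual

/-! P292 A/Third (TASK; helper names start with `thi_`). A third extremal point. `u = kb μ v * kb μ v' ≠ 0` (`kb_ne`). `A = Algebra.adjoin ℂ (insert u⁻¹ (range μ))` is of finite type, so there is `φ : A →ₐ[ℂ] ℂ` (maximal ideal, `finite_of_finite_type_of_isJacobsonRing`, `IsAlgClosed.lift`; see `base_hom` in P276/B/Base, copy it). Lift `μ` to `μ' : Fin (r + 1) → A`; `Ex.of_map` for `A.val`, `Ex.map` for `φ`; `z = φ ∘ μ'`; `map_kb` and `u * u⁻¹ = 1` in `A`. -/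

noncomputable section

namespace Vale.Agent.P292

open Vale.Agent.P271

variable {g : Type} [LieRing g] [LieAlgebra ℂ g] {r : ℕ} {W : Type} [Field W] [Algebra ℂ W]

variable (b : Module.Basis (Fin (r + 1)) ℂ g)

theorem thi_hom (A : Type) [CommRing A] [Nontrivial A] [Algebra ℂ A] [Algebra.FiniteType ℂ A] :
    Nonempty (A →ₐ[ℂ] ℂ) := by
  obtain ⟨m, hm⟩ := Ideal.exists_maximal A
  let _ := Ideal.Quotient.field m
  have := finite_of_finite_type_of_isJacobsonRing ℂ (A ⧸ m)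
  exact ⟨(IsAlgClosed.lift : (A ⧸ m) →ₐ[ℂ] ℂ).comp (Ideal.Quotient.mkₐ ℂ m)⟩

theorem thi_kb {R R' : Type} [CommRing R] [Algebra ℂ R] [CommRing R'] [Algebra ℂ R']
    (f : R →ₐ[ℂ] R') (x : Fin (r + 1) → R) (w : Fin (r + 1) → ℂ) :
    f (kb b x (algebraMap ℂ R ∘ w)) = kb b (f ∘ x) (algebraMap ℂ R' ∘ w) :=
  (map_kb b f _ _).trans (congrArg _ (funext fun i => f.commutes (w i)))

theorem third [LieAlgebra.IsKilling ℂ g] {c : ℂ} {μ : Fin (r + 1) → W}
    (hμ : LinearIndependent ℂ μ) (h : Ex b c μ) {w w' : Fin (r + 1) → ℂ} (hw : w ≠ 0)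
    (hw' : w' ≠ 0) : ∃ z : Fin (r + 1) → ℂ, Ex b c z ∧ kb b z w ≠ 0 ∧ kb b z w' ≠ 0 := by
  classical
  have hk : ∀ w : Fin (r + 1) → ℂ, w ≠ 0 → kb b μ (algebraMap ℂ W ∘ w) ≠ 0 := fun w hw => by
    have := kb_ne b hμ ((map_ne_zero_iff _ b.equivFun.symm.injective).2 hw)
    rwa [LinearEquiv.apply_symm_apply] at this
  obtain ⟨u, hu⟩ : ∃ u, kb b μ (algebraMap ℂ W ∘ w) * kb b μ (algebraMap ℂ W ∘ w') * u = 1 :=
    ⟨_, mul_inv_cancel₀ (mul_ne_zero (hk w hw) (hk w' hw'))⟩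
  let A := Algebra.adjoin ℂ ((insert u (Finset.univ.image μ) : Finset W) : Set W)
  have : Algebra.FiniteType ℂ A := (Subalgebra.fg_iff_finiteType A).1 ⟨_, rfl⟩
  obtain ⟨φ⟩ := thi_hom A
  let μ' : Fin (r + 1) → A := fun i => ⟨μ i, Algebra.subset_adjoin (by simp)⟩
  let u' : A := ⟨u, Algebra.subset_adjoin (by simp)⟩
  have h1 : kb b μ' (algebraMap ℂ A ∘ w) * kb b μ' (algebraMap ℂ A ∘ w') * u' = 1 :=
    (show Function.Injective A.val from Subtype.val_injective) (by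
      rw [map_mul, map_mul, thi_kb, thi_kb, map_one]
      exact hu)
  have h2 := congrArg φ h1
  rw [map_mul, map_mul, thi_kb, thi_kb, map_one] at h2
  have h3 := left_ne_zero_of_mul_eq_one h2
  exact ⟨φ ∘ μ', (Ex.of_map b A.val Subtype.val_injective h).map b φ, left_ne_zero_of_mul h3,
    right_ne_zero_of_mul h3⟩


end Vale.Agent.P292
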