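import Vale.Agent.P292.A.Mod
import Vale.Agent.P292.A.Third

/-! P292 A/Orb (TASK; helper names start with `orb_`). `orb_two`: for extremal `x` the cube of `ad x` vanishes, so `1 + ad (s x) + (1 / 2) ad (s x) ^ 2 ∈ Inn g` (`m = 3`). With `k = c κ x y`: `exp (ad x) y = y + ⁅x, y⁆ + (k / 2) x`, and for `t = 2 / k`, `exp (ad (t y))` maps `y ↦ y`, `⁅x, y⁆ ↦ ⁅x, y⁆ - t k y`, `x ↦ x - t ⁅x, y⁆ + (t ^ 2 k / 2) y`; the total is `(k / 2) x`. `orbit`: `third`, `mod_self`, `Mod.ex_iff`, `orb_two` twice. -/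

noncomputable section

namespace Vale.Agent.P292

open Vale.Agent.P271

variable {g : Type} [LieRing g] [LieAlgebra ℂ g] {r : ℕ} {W : Type} [Field W] [Algebra ℂ W]

variable (b : Module.Basis (Fin (r + 1)) ℂ g)

theorem orb_exp {z : g} (hz : ∀ v : g, ⁅z, ⁅z, ⁅z, v⁆⁆⁆ = 0) :
    ∃ φ ∈ Inn g, ∀ v, φ v = v + ⁅z, v⁆ + (1 / 2 : ℂ) • ⁅z, ⁅z, v⁆⁆ := by
  refine ⟨_, Submonoid.subset_closure ⟨z, 3, ?_, rfl⟩, fun v => ?_⟩
  · ext v
    simpa [pow_succ] using hz v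
  · simp [Finset.sum_range_succ, pow_succ]

theorem orb_two {c : ℂ} {x y : g} (hx : ∀ v, ⁅x, ⁅x, v⁆⁆ = (c * killingForm ℂ g x v) • x)
    (hy : ∀ v, ⁅y, ⁅y, v⁆⁆ = (c * killingForm ℂ g y v) • y) (hk : c * killingForm ℂ g x y ≠ 0) :
    ∃ a : ℂ, a ≠ 0 ∧ ∃ φ ∈ Inn g, x = a • φ y := by
  obtain ⟨k, hk'⟩ : ∃ k, k = c * killingForm ℂ g x y := ⟨_, rfl⟩
  have hk0 : k ≠ 0 := hk' ▸ hk
  have e1 : ⁅x, ⁅x, y⁆⁆ = k • x := by rw [hx, hk']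
  have e2 : ⁅y, ⁅y, x⁆⁆ = k • y := by rw [hy, hk', LieModule.traceForm_comm]
  have e3 : ⁅y, x⁆ = -⁅x, y⁆ := (lie_skew y x).symm
  have e4 : ⁅y, ⁅x, y⁆⁆ = -(k • y) := by rw [← e2, e3, lie_neg, neg_neg]
  obtain ⟨φ, hφ, h1⟩ := orb_exp (z := x) fun v => by rw [hx v, lie_smul, lie_self, smul_zero]
  obtain ⟨ψ, hψ, h2⟩ := orb_exp (z := (2 / k) • y) fun v => by
    simp only [smul_lie, lie_smul, hy v, lie_self, smul_zero]
  refine ⟨2 / k, div_ne_zero two_ne_zero hk0, ψ * φ, mul_mem hψ hφ, ?_⟩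
  rw [Module.End.mul_apply, h1, e1, h2]
  simp only [smul_lie, lie_smul, lie_add, lie_self, e3, e4, lie_neg, lie_zero, smul_zero, neg_zero]
  match_scalars
  · field_simp
  · field_simp
    ring
  · field_simp
    ring

/-- A4: extremal elements in the closure of `μ` form one orbit up to scalars. -/
theorem orbit [LieAlgebra.IsKilling ℂ g] {c : ℂ} (hc : c ≠ 0) {μ : Fin (r + 1) → W}
    (hμ : LinearIndependent ℂ μ) (h : Ex b c μ) {w w' : Fin (r + 1) → ℂ} (hw : w ≠ 0) (hw' : w' ≠ 0)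
    (h1 : Ex b c w) (h2 : Ex b c w') :
    ∃ a : ℂ, a ≠ 0 ∧ ∃ φ ∈ Inn g, b.equivFun.symm w' = a • φ (b.equivFun.symm w) := by
  obtain ⟨z, hz, hz1, hz2⟩ := third b hμ h hw hw'
  have f1 := (mod_self b).ex_iff.mp h1
  have f2 := (mod_self b).ex_iff.mp h2
  have f3 := (mod_self b).ex_iff.mp hz
  rw [(mod_self b).kil] at hz1 hz2
  obtain ⟨a, ha, φ, hφ, e1⟩ := orb_two f3 f1 (mul_ne_zero hc hz1)
  obtain ⟨a', ha', φ', hφ', e2⟩ := orb_two f2 f3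
    (mul_ne_zero hc (by rwa [LieModule.traceForm_comm]))
  refine ⟨a' * a, mul_ne_zero ha' ha, φ' * φ, mul_mem hφ' hφ, ?_⟩
  rw [e2, e1, map_smul, smul_smul, Module.End.mul_apply]

end Vale.Agent.P292
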