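import Vale.Agent.P292.A.Mod
import Vale.Agent.P292.A.Dual

/-! P292 A/Simp (TASK; helper names start with `sim_`). Let `I ≠ ⊥` be an ideal, `0 ≠ v ∈ I`, `v'` orthogonal to `I`. With `w`, `w'` the constant points of `v`, `v'`: `kb b (lb b μ (lb b μ w)) w' = kb b μ (lb b (lb b μ w) w')` (`kb_lb`), and `lb b (lb b μ w) w' = 0` because `⁅⁅b i, v⁆, v'⁆ = 0` (it lies in `I` and is orthogonal to `I`, or directly: `killingForm ⁅b i, ⁅b j, v⁆⁆ v' = 0` and expand). So `c * kb μ w * kb μ w' = 0`, `v' = 0` (`kb_ne`). Then `I = ⊤` (`LieIdeal.isCompl_killingCompl`, or `LinearMap.BilinForm.finrank_orthogonal`). Not abelian: the Killing form of an abelian algebra vanishes and `b 0 ≠ 0`. -/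

noncomputable section

namespace Vale.Agent.P292

open Vale.Agent.P271

variable {g : Type} [LieRing g] [LieAlgebra ℂ g] {r : ℕ} {W : Type} [Field W] [Algebra ℂ W]

variable (b : Module.Basis (Fin (r + 1)) ℂ g)

theorem sim_lb (μ : Fin (r + 1) → W) (v : g) :
    lb b μ (algebraMap ℂ W ∘ b.equivFun v) =
      ∑ i, μ i • (algebraMap ℂ W ∘ b.equivFun ⁅b i, v⁆) := by
  funext k
  simp only [lb, Finset.sum_apply, Pi.smul_apply, Function.comp_apply, smul_eq_mul,
    Module.Basis.equivFun_apply]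
  refine Finset.sum_congr rfl fun i _ => ?_
  have e : b.repr ⁅b i, v⁆ k = ∑ j, b.repr v j * b.repr ⁅b i, b j⁆ k := by
    conv_lhs => rw [← b.sum_repr v]
    simp only [lie_sum, lie_smul, map_sum, map_smul, Finsupp.finsetSum_apply, Finsupp.smul_apply,
      smul_eq_mul]
  rw [e, map_sum, Finset.mul_sum]
  exact Finset.sum_congr rfl fun j _ => by rw [map_mul, mul_assoc]

theorem sim_kb (u v : g) : kb b (algebraMap ℂ W ∘ b.equivFun u) (algebraMap ℂ W ∘ b.equivFun v) =
    algebraMap ℂ W (killingForm ℂ g u v) := by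
  rw [kb_const]
  conv_rhs => rw [← b.sum_repr u]
  simp only [map_sum, map_smul, LinearMap.sum_apply, LinearMap.smul_apply, smul_eq_mul, map_mul,
    Algebra.smul_def, Function.comp_apply, Module.Basis.equivFun_apply, mul_comm]

theorem sim_smul (x y : Fin (r + 1) → W) (a : W) : kb b x (a • y) = a * kb b x y := by
  simpa using kb_sum b (Finset.univ : Finset Unit) x (fun _ => a) fun _ => y

/-- A6. -/
theorem simple_of [LieAlgebra.IsKilling ℂ g] {c : ℂ} (hc : c ≠ 0) {μ : Fin (r + 1) → W}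
    (hμ : LinearIndependent ℂ μ) (h : Ex b c μ) : LieAlgebra.IsSimple ℂ g := by
  have : Module.Finite ℂ g := Module.Finite.of_basis b
  refine ⟨fun I => ?_, fun ha => ?_⟩
  · by_cases hI : I = ⊥
    · exact Or.inl hI
    obtain ⟨v, hv, hv0⟩ : ∃ v ∈ I, v ≠ 0 := by
      by_contra hn
      push Not at hn
      exact hI ((LieSubmodule.eq_bot_iff I).2 hn)
    refine Or.inr (eq_top_of_isCompl_bot ?_)
    have hb : I.killingCompl = ⊥ := by
      refine (LieSubmodule.eq_bot_iff _).2 fun v' hv' => ?_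
      by_contra h0
      have h1 := congrArg (kb b (algebraMap ℂ W ∘ b.equivFun v'))
        (h (algebraMap ℂ W ∘ b.equivFun v))
      have h2 : ∀ i j, killingForm ℂ g v' ⁅b i, ⁅b j, v⁆⁆ = 0 := fun i j => by
        rw [LieModule.traceForm_comm]
        exact (LieIdeal.mem_killingCompl ℂ g I).1 hv' _ (I.lie_mem (I.lie_mem hv))
      rw [sim_smul, sim_lb, lb_sum, kb_sum, kb_symm b _ μ] at h1
      simp only [sim_lb, kb_sum, sim_kb, h2, map_zero, mul_zero, Finset.sum_const_zero] at h1
      exact mul_ne_zero (mul_ne_zero ((map_ne_zero _).2 hc) (kb_ne b hμ hv0)) (kb_ne b hμ h0)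
        h1.symm
    exact hb ▸ I.isCompl_killingCompl
  · refine kb_ne b hμ (b.ne_zero 0) ?_
    rw [kb_const]
    refine Finset.sum_eq_zero fun i _ => ?_
    have e : LieAlgebra.ad ℂ g (b i) = 0 := LinearMap.ext fun x => by simp [trivial_lie_zero]
    rw [killingForm_apply_apply, e]
    simp

end Vale.Agent.P292
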