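import Vale.Agent.P292.A.Defs

/-! P292 A/Step (TASK; helper names start with `ste_`). `Relation.ReflTransGen` induction (`tail`), `LinearMap.sum_apply`; conversely `Submonoid.closure_induction_left`. -/

noncomputable section

namespace Vale.Agent.P292

open Vale.Agent.P271

variable {g : Type} [LieRing g] [LieAlgebra ℂ g] {r : ℕ} {W : Type} [Field W] [Algebra ℂ W]

/-- The adjoint group and the relation of the statement. -/
theorem step_iff (e y : g) : Relation.ReflTransGen AdStep e y ↔ ∃ φ ∈ Inn g, y = φ e := by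
  constructor
  · intro h
    induction h with
    | refl => exact ⟨1, (Inn g).one_mem, rfl⟩
    | tail _ h2 ih =>
      obtain ⟨φ, hφ, rfl⟩ := ih
      obtain ⟨n, m, hm, rfl⟩ := h2
      refine ⟨(∑ k ∈ Finset.range m, ((k.factorial : ℂ)⁻¹) • LieAlgebra.ad ℂ g n ^ k) * φ,
        (Inn g).mul_mem (Submonoid.subset_closure ⟨n, m, hm, rfl⟩) hφ, ?_⟩
      simp only [Module.End.mul_apply, LinearMap.sum_apply, LinearMap.smul_apply]
  · rintro ⟨φ, hφ, rfl⟩
    induction hφ using Submonoid.closure_induction_left with
    | one => exact Relation.ReflTransGen.refl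
    | mul_left ψ hψ φ _ ih =>
      obtain ⟨n, m, hm, rfl⟩ := hψ
      refine ih.tail ⟨n, m, hm, ?_⟩
      simp only [Module.End.mul_apply, LinearMap.sum_apply, LinearMap.smul_apply]

end Vale.Agent.P292
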