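import Vale.Agent.P292.A.Mod

/-! P292 A/Tr (TASK; helper names start with `tr_`). The trace of `N = ad x * ad w`.
With `a = f w`, `h = ⁅x, w⁆`: `2 ⁅x, ⁅w, ⁅x, u⁆⁆⁆ = 2 f ⁅w, u⁆ • x - 2 f u • h - 2 a • ⁅x, u⁆` (expand `⁅⁅x, ⁅x, w⁆⁆, u⁆` by `lie_lie`), so `N (N v) + a N v = f ⁅w, ⁅w, v⁆⁆ • x - f ⁅w, v⁆ • h`; `N x = -2 a x`, `N h = -2 a h`; hence `(N + 2 a) (N ^ 2 + a N) = 0`.
If `a = 0`, `N` is nilpotent, its trace (`killingForm_apply_apply`) is zero (`LinearMap.isNilpotent_trace_of_isNilpotent`). If `a = 1`: `P₁ = -N (N + 2)`, `P₂ = N (N + 1) / 2` are idempotent, `N = -P₁ - 2 P₂`, `P₂ x = x`; the trace of an idempotent is the rank of its range (`LinearMap.IsProj.trace`, `LinearMap.IsIdempotentElem.isProj_range`). `ext_tr`: `exists_mod`; if `φ ⬝ᵥ · = 0` take `c = 1`; else pick `w₀` with value one, `c = -m`, and `w - (φ ⬝ᵥ w) • w₀` has value zero. -/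

noncomputable section

namespace Vale.Agent.P292

open Vale.Agent.P271

variable {g : Type} [LieRing g] [LieAlgebra ℂ g] {r : ℕ} {W : Type} [Field W] [Algebra ℂ W]

variable (b : Module.Basis (Fin (r + 1)) ℂ g)

omit [Algebra ℂ W] in
theorem tr_idem {L : Type} [AddCommGroup L] [Module W L] [Module.Finite W L] {P : Module.End W L}
    (h : P * P = P) : LinearMap.trace W L P = (Module.finrank W (LinearMap.range P) : W) :=
  ((LinearMap.IsIdempotentElem.isProj_range P h).trace).trans rfl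

theorem tr_abs {L : Type} [LieRing L] [LieAlgebra W L] [Module.Finite W L] {x : L} (h0 : x ≠ 0)
    (f : L →ₗ[W] W) (h : ∀ v, ⁅x, ⁅x, v⁆⁆ = (2 * f v) • x) (w : L) :
    (f w = 0 → killingForm W L x w = 0) ∧
      (f w = 1 → ∃ m : ℕ, 0 < m ∧ killingForm W L x w = -(m : W)) := by
  have : CharZero W := (RingHom.charZero_iff (algebraMap ℂ W).injective).1 inferInstance
  set N : Module.End W L := LieAlgebra.ad W L x * LieAlgebra.ad W L w with hN
  have hk : killingForm W L x w = LinearMap.trace W L N := killingForm_apply_apply W L x w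
  have hNa : ∀ v, N v = ⁅x, ⁅w, v⁆⁆ := fun v => rfl
  have h1 : ∀ u, ⁅x, ⁅w, ⁅x, u⁆⁆⁆ = f ⁅w, u⁆ • x - f u • ⁅x, w⁆ - f w • ⁅x, u⁆ := fun u => by
    have e1 : ⁅⁅x, ⁅x, w⁆⁆, u⁆ = (2 * f w) • ⁅x, u⁆ := by rw [h, smul_lie]
    rw [lie_lie, lie_lie, lie_lie, lie_sub, h, h, lie_smul, ← lie_skew w x] at e1
    linear_combination (norm := module) (-1 / 2 : W) • e1
  have hx : N x = (-2 * f w) • x := by
    rw [hNa, ← lie_skew w x, lie_neg, h]
    module
  have hh : N ⁅x, w⁆ = (-2 * f w) • ⁅x, w⁆ := by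
    rw [hNa, h1, lie_self, map_zero]
    module
  have h2 : ∀ v, N (N v) = f ⁅w, ⁅w, v⁆⁆ • x - f ⁅w, v⁆ • ⁅x, w⁆ - f w • N v := fun v => h1 _
  have h3 : N * N * N = -(3 * f w) • (N * N) - (2 * f w ^ 2) • N := by
    ext v
    have e1 := congrArg N (h2 v)
    rw [map_sub, map_sub, map_smul, map_smul, map_smul, hx, hh] at e1
    simp only [Module.End.mul_apply, LinearMap.sub_apply, LinearMap.smul_apply]
    linear_combination (norm := module) e1 + (2 * f w) • h2 v
  refine ⟨fun hw => ?_, fun hw => ?_⟩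
  · rw [hk]
    refine (LinearMap.isNilpotent_trace_of_isNilpotent ⟨3, ?_⟩).eq_zero
    rw [pow_three', h3, hw]
    simp
  · rw [hw] at h3 hx
    have h4 : N * N * N * N = (7 : W) • (N * N) + (6 : W) • N := by
      rw [h3, sub_mul, smul_mul_assoc, smul_mul_assoc, h3]
      module
    set P : Module.End W L := -(N * N) - (2 : W) • N with hP
    set Q : Module.End W L := (1 / 2 : W) • (N * N) + (1 / 2 : W) • N with hQ
    have hPP : P * P = P := by
      simp only [hP, sub_mul, mul_sub, neg_mul, mul_neg, smul_mul_assoc, mul_smul_comm, ← mul_assoc]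
      rw [h4, h3]
      module
    have hQQ : Q * Q = Q := by
      simp only [hQ, add_mul, mul_add, smul_mul_assoc, mul_smul_comm, ← mul_assoc]
      rw [h4, h3]
      module
    have hQx : Q x = x := by
      simp only [hQ, LinearMap.add_apply, LinearMap.smul_apply, Module.End.mul_apply, hx, map_smul]
      module
    have hpos : 0 < Module.finrank W (LinearMap.range Q) :=
      Module.finrank_pos_iff_exists_ne_zero.2 ⟨⟨x, x, hQx⟩, fun e => h0 (congrArg Subtype.val e)⟩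
    refine ⟨Module.finrank W (LinearMap.range P) + 2 * Module.finrank W (LinearMap.range Q),
      by omega, ?_⟩
    have e : N = -P - (2 : W) • Q := by
      rw [hP, hQ]
      module
    rw [hk, e, map_sub, map_neg, map_smul, tr_idem hPP, tr_idem hQQ, smul_eq_mul]
    push_cast
    ring

/-- A1: the form of an extremal element is a rational multiple of the Killing form. -/
theorem ext_tr {x φ : Fin (r + 1) → W} (h0 : x ≠ 0)
    (h : ∀ w, lb b x (lb b x w) = (2 * (φ ⬝ᵥ w)) • x) :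
    ∃ c : ℂ, c ≠ 0 ∧ ∀ w, kb b x w = algebraMap ℂ W c * (φ ⬝ᵥ w) := by
  obtain ⟨L, _, _, B, hB⟩ := exists_mod b W
  have := Module.Finite.of_basis B
  let f : L →ₗ[W] W := (dotProductBilin W W φ).comp B.equivFun.toLinearMap
  have hf : ∀ w, f (B.equivFun.symm w) = φ ⬝ᵥ w := fun w =>
    congrArg (φ ⬝ᵥ ·) (B.equivFun.apply_symm_apply w)
  have key := tr_abs (x := B.equivFun.symm x) (B.equivFun.symm.map_ne_zero_iff.2 h0) f fun v => by
    obtain ⟨w, rfl⟩ := B.equivFun.symm.surjective v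
    rw [← hB.lie, ← hB.lie, h, map_smul, hf]
  have h1 : ∀ w, φ ⬝ᵥ w = 0 → kb b x w = 0 := fun w hw => by
    rw [hB.kil]
    exact (key _).1 ((hf w).trans hw)
  by_cases hφ : ∀ w, φ ⬝ᵥ w = 0
  · exact ⟨1, one_ne_zero, fun w => by rw [h1 w (hφ w), hφ w, mul_zero]⟩
  push Not at hφ
  obtain ⟨w₁, hw₁⟩ := hφ
  have hw₀ : φ ⬝ᵥ (φ ⬝ᵥ w₁)⁻¹ • w₁ = 1 := by
    rw [dotProduct_smul, smul_eq_mul, inv_mul_cancel₀ hw₁]
  generalize (φ ⬝ᵥ w₁)⁻¹ • w₁ = w₀ at hw₀
  obtain ⟨m, hm, e⟩ := (key _).2 ((hf w₀).trans hw₀)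
  refine ⟨-(m : ℂ), neg_ne_zero.2 (Nat.cast_ne_zero.2 hm.ne'), fun w => ?_⟩
  have h2 := h1 (w - (φ ⬝ᵥ w) • w₀) (by
    rw [dotProduct_sub, dotProduct_smul, hw₀, smul_eq_mul, mul_one, sub_self])
  rw [hB.kil, map_sub, map_smul, map_sub, map_smul, e, ← hB.kil, smul_eq_mul] at h2
  rw [map_neg, map_natCast]
  linear_combination h2

end Vale.Agent.P292
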