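import Vale.Agent.P292.A.Lie
import Vale.Agent.P292.A.Tr
import Vale.Agent.P292.A.Simp
import Vale.Agent.P292.A.Conic
import Vale.Agent.P292.A.Orb
import Vale.Agent.P292.A.OnX
import Vale.Agent.P292.A.Norm
import Vale.Agent.P292.A.ExN
import Vale.Agent.P292.A.Fix
import Vale.Agent.P292.A.Step

/-! P292 block A (pure Lie theory; sub-lead helper63). Interface used by block Z: the lemmas
`exists_lie ext_tr kb_lb kb_symm lb_anti kb_dual simple_of conic_mid orbit Ex.nil Ex.onX onX_inn
exists_normal fixed_pt eq_one_of_stab step_iff brK_eq killK_eq` are in the imported files. -/
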