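import Vale.Agent.P292.A.Bas

/-! P292 A/Mod (TASK; helper names start with `mod_`). Base change.
A basis `B` with `⁅B i, B j⁆ = ∑ k, algebraMap (b.repr ⁅b i, b j⁆ k) • B k` and `killingForm (B i) (B j) = algebraMap (killingForm (b i) (b j))` is a model (`Basis.equivFun_symm_apply`, bilinearity). `exists_mod`: `L = W ⊗[ℂ] g`, `B = Algebra.TensorProduct.basis W b`, `LieAlgebra.ExtendScalars.bracket_tmul`, `LieModule.traceForm_baseChange`. `kb_lb`: `LieModule.traceForm_apply_lie_apply`. `Ex.nil`: the cube of `ad` vanishes. -/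

noncomputable section

namespace Vale.Agent.P292

open Vale.Agent.P271

variable {g : Type} [LieRing g] [LieAlgebra ℂ g] {r : ℕ} {W : Type} [Field W] [Algebra ℂ W]

variable (b : Module.Basis (Fin (r + 1)) ℂ g)

variable {L : Type} [LieRing L] [LieAlgebra W L] {B : Module.Basis (Fin (r + 1)) W L}

theorem mod_of (h1 : ∀ i j k, B.repr ⁅B i, B j⁆ k = algebraMap ℂ W (b.repr ⁅b i, b j⁆ k))
    (h2 : ∀ i j, killingForm W L (B i) (B j) = algebraMap ℂ W (killingForm ℂ g (b i) (b j))) :
    Mod b B := by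
  refine ⟨fun x y => ?_, fun x y => ?_⟩
  · rw [LinearEquiv.symm_apply_eq, B.equivFun_symm_apply, B.equivFun_symm_apply, sum_lie_sum]
    funext k
    simp only [lb, B.equivFun_apply, map_sum, smul_lie, lie_smul, map_smul, Finsupp.finsetSum_apply,
      Finsupp.smul_apply, smul_eq_mul, h1]
    exact Finset.sum_congr rfl fun _ _ => Finset.sum_congr rfl fun _ _ => by ring
  · simp only [kb, B.equivFun_symm_apply, map_sum, map_smul, LinearMap.sum_apply,
      LinearMap.smul_apply, smul_eq_mul, h2, Finset.mul_sum]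
    rw [Finset.sum_comm]
    exact Finset.sum_congr rfl fun _ _ => Finset.sum_congr rfl fun _ _ => by ring

theorem exists_mod (W : Type) [Field W] [Algebra ℂ W] : ∃ (L : Type) (_ : LieRing L)
    (_ : LieAlgebra W L) (B : Module.Basis (Fin (r + 1)) W L), Mod b B := by
  have := Module.Free.of_basis b
  have := Module.Finite.of_basis b
  refine ⟨TensorProduct ℂ W g, inferInstance, inferInstance, Algebra.TensorProduct.basis W b,
    mod_of b (fun i j k => ?_) fun i j => ?_⟩
  · simp [Algebra.TensorProduct.basis_apply, LieAlgebra.ExtendScalars.bracket_tmul,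
      Algebra.TensorProduct.basis_repr_tmul]
  · rw [Algebra.TensorProduct.basis_apply, Algebra.TensorProduct.basis_apply, killingForm,
      LieModule.traceForm_baseChange]
    simp [Algebra.algebraMap_eq_smul_one]

theorem mod_self : Mod b b :=
  mod_of b (fun _ _ _ => rfl) fun _ _ => rfl

theorem Mod.ex_iff (h : Mod b B) {c : ℂ} {x : Fin (r + 1) → W} : Ex b c x ↔ ∀ v : L,
    ⁅B.equivFun.symm x, ⁅B.equivFun.symm x, v⁆⁆ =
      (algebraMap ℂ W c * killingForm W L (B.equivFun.symm x) v) • B.equivFun.symm x := by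
  rw [B.equivFun.symm.surjective.forall]
  refine forall_congr' fun w => ?_
  rw [← h.lie, ← h.lie, ← h.kil, ← map_smul, B.equivFun.symm.injective.eq_iff]

/-- Invariance of the Killing form. -/
theorem kb_lb (x y z : Fin (r + 1) → W) : kb b (lb b x y) z = kb b x (lb b y z) := by
  obtain ⟨L, _, _, B, h⟩ := exists_mod b W
  rw [h.kil, h.kil, h.lie, h.lie]
  exact LieModule.traceForm_apply_lie_apply W L L _ _ _

/-- An extremal point is ad-nilpotent and extremal in `g`. -/
theorem Ex.nil {c : ℂ} [LieAlgebra.IsKilling ℂ g] {w : Fin (r + 1) → ℂ} (h : Ex b c w) :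
    IsNilpotent (LieAlgebra.ad ℂ g (b.equivFun.symm w)) ∧
      ∀ y : g, ∃ a : ℂ, ⁅b.equivFun.symm w, ⁅b.equivFun.symm w, y⁆⁆ = a • b.equivFun.symm w := by
  have h1 := (Mod.ex_iff b (mod_self b)).1 h
  refine ⟨⟨3, LinearMap.ext fun y => ?_⟩, fun y => ⟨_, h1 y⟩⟩
  simp only [pow_succ, pow_zero, Module.End.mul_apply, Module.End.one_apply, LieAlgebra.ad_apply,
    LinearMap.zero_apply]
  rw [h1 y, lie_smul, lie_self, smul_zero]

end Vale.Agent.P292
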