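import Vale.Agent.P292.A.Act

/-! P292 A/Pres (TASK; helper names start with `pre_`). `δ = MvPolynomial.mkDerivation ℂ (ac b N X)`. For a derivation `d` of a commutative algebra `R` and `x` with `d (x k) = ac b N x k`: `d (aeval x P) = aeval x (δ P)` (`MvPolynomial.induction_on`, `map_ac`). Apply it to `(W, D, μ)`: `aeval μ (δ^[j] P) = 0` for all `j`; and to `W[X]` with `Polynomial.derivative'` (`Derivation.restrictScalars ℂ`) and `ν k = ∑ j ∈ range m, monomial j (((j.factorial : ℂ)⁻¹ • ac b (N ^ j) μ) k)`, which has `derivative (ν k) = ac b N ν k` (compare coefficients; `ac_mul`, `N ^ m = 0`, `ac_zero`), `ν(0) = μ` (`0 < m` since `b 0 ≠ 0`), `ν(1) = ac b (∑ ..) μ` (`ac_sum`). All iterated derivatives of `aeval ν P` vanish at `0`, so it is zero (`Polynomial.coeff_iterate_derivative`); evaluate at `1`. -/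

noncomputable section

namespace Vale.Agent.P292

open Vale.Agent.P271

variable {g : Type} [LieRing g] [LieAlgebra ℂ g] {r : ℕ} {W : Type} [Field W] [Algebra ℂ W]

variable (b : Module.Basis (Fin (r + 1)) ℂ g)

theorem pre_der {R : Type} [CommRing R] [Algebra ℂ R] (d : Derivation ℂ R R)
    (N : Module.End ℂ g) (x : Fin (r + 1) → R) (hx : ∀ k, d (x k) = ac b N x k)
    (P : MvPolynomial (Fin (r + 1)) ℂ) :
    d (MvPolynomial.aeval x P) = MvPolynomial.aeval x
      (MvPolynomial.mkDerivation ℂ
        (ac b N (MvPolynomial.X : Fin (r + 1) → MvPolynomial (Fin (r + 1)) ℂ)) P) := by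
  induction P using MvPolynomial.induction_on with
  | C a =>
    rw [MvPolynomial.derivation_C, map_zero, MvPolynomial.aeval_C, Derivation.map_algebraMap]
  | add p q hp hq => rw [map_add, map_add, map_add, map_add, hp, hq]
  | mul_X p k hp =>
    have h1 := congrFun (map_ac b (MvPolynomial.aeval x) N
      (MvPolynomial.X : Fin (r + 1) → MvPolynomial (Fin (r + 1)) ℂ)) k
    have h2 : (⇑(MvPolynomial.aeval x : MvPolynomial (Fin (r + 1)) ℂ →ₐ[ℂ] R)) ∘
        (MvPolynomial.X : Fin (r + 1) → MvPolynomial (Fin (r + 1)) ℂ) = x := by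
      funext i
      simp
    rw [h2, Function.comp_apply] at h1
    rw [map_mul, Derivation.leibniz, Derivation.leibniz, MvPolynomial.aeval_X, hx, hp,
      MvPolynomial.mkDerivation_X, smul_eq_mul, smul_eq_mul, smul_eq_mul, smul_eq_mul, map_add,
      map_mul, map_mul, h1, MvPolynomial.aeval_X]

theorem pre_iter {R : Type} [CommRing R] [Algebra ℂ R] (d : Derivation ℂ R R)
    (N : Module.End ℂ g) (x : Fin (r + 1) → R) (hx : ∀ k, d (x k) = ac b N x k)
    (j : ℕ) (P : MvPolynomial (Fin (r + 1)) ℂ) :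
    (⇑d)^[j] (MvPolynomial.aeval x P) = MvPolynomial.aeval x
      ((⇑(MvPolynomial.mkDerivation ℂ
        (ac b N (MvPolynomial.X : Fin (r + 1) → MvPolynomial (Fin (r + 1)) ℂ))))^[j] P) := by
  induction j generalizing P with
  | zero => rfl
  | succ j ih =>
    rw [Function.iterate_succ_apply, Function.iterate_succ_apply, pre_der b d N x hx, ih]

theorem pre_coeff_ac (N : Module.End ℂ g) (ν : Fin (r + 1) → Polynomial W) (k : Fin (r + 1))
    (n : ℕ) : (ac b N ν k).coeff n = ac b N (fun j => (ν j).coeff n) k := by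
  simp only [ac, Polynomial.finset_sum_coeff]
  refine Finset.sum_congr rfl fun j _ => ?_
  rw [Polynomial.algebraMap_apply, Polynomial.coeff_C_mul]

theorem pre_ac_mul (N : Module.End ℂ g) (c : W) (x : Fin (r + 1) → W) (k : Fin (r + 1)) :
    ac b N (fun j => c * x j) k = c * ac b N x k := by
  simp only [ac, Finset.mul_sum]
  refine Finset.sum_congr rfl fun j _ => ?_
  ring

theorem pre_zero {p : Polynomial W}
    (h : ∀ j : ℕ, ((⇑(Polynomial.derivative (R := W)))^[j] p).coeff 0 = 0) : p = 0 := by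
  haveI : CharZero W := charZero_of_injective_algebraMap (algebraMap ℂ W).injective
  ext n
  have h1 := h n
  rw [Polynomial.coeff_iterate_derivative, zero_add, Nat.descFactorial_self, nsmul_eq_mul] at h1
  have h2 : ((n.factorial : ℕ) : W) ≠ 0 := Nat.cast_ne_zero.2 n.factorial_ne_zero
  rw [Polynomial.coeff_zero]
  exact (mul_eq_zero.1 h1).resolve_left h2

theorem pre_eval (ν : Fin (r + 1) → Polynomial W) (t : W) (P : MvPolynomial (Fin (r + 1)) ℂ) :
    (MvPolynomial.aeval ν P).eval t = MvPolynomial.aeval (fun k => (ν k).eval t) P := by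
  induction P using MvPolynomial.induction_on with
  | C a =>
    rw [MvPolynomial.aeval_C, MvPolynomial.aeval_C, Polynomial.algebraMap_apply, Polynomial.eval_C]
  | add p q hp hq => rw [map_add, map_add, Polynomial.eval_add, hp, hq]
  | mul_X p k hp =>
    rw [map_mul, map_mul, Polynomial.eval_mul, hp, MvPolynomial.aeval_X, MvPolynomial.aeval_X]

theorem pres_exp {μ : Fin (r + 1) → W} (D : Derivation ℂ W W) {N : Module.End ℂ g} {m : ℕ}
    (hN : N ^ m = 0) (hD : ∀ k, D (μ k) = ac b N μ k) :
    Pres b μ (∑ k ∈ Finset.range m, ((k.factorial : ℂ)⁻¹) • N ^ k) := by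
  intro P hP
  set ν : Fin (r + 1) → Polynomial W := fun k => ∑ j ∈ Finset.range m,
    Polynomial.monomial j (algebraMap ℂ W ((j.factorial : ℂ)⁻¹) * ac b (N ^ j) μ k) with hν
  have hco : ∀ k n, (ν k).coeff n = algebraMap ℂ W ((n.factorial : ℂ)⁻¹) * ac b (N ^ n) μ k := by
    intro k n
    simp only [hν, Polynomial.finset_sum_coeff, Polynomial.coeff_monomial]
    rw [Finset.sum_ite_eq' (Finset.range m) n]
    split_ifs with h
    · rfl
    · have h1 : m ≤ n := by simpa using h
      have h2 : N ^ n = 0 := pow_eq_zero_of_le h1 hN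
      rw [h2, ac_zero, Pi.zero_apply, mul_zero]
  have hd : ∀ k, (Polynomial.derivative'.restrictScalars ℂ :
      Derivation ℂ (Polynomial W) (Polynomial W)) (ν k) = ac b N ν k := by
    intro k
    rw [Derivation.restrictScalars_apply, Polynomial.derivative'_apply]
    ext n
    rw [Polynomial.coeff_derivative, pre_coeff_ac, hco]
    simp only [hco]
    rw [pre_ac_mul, pow_succ', ac_mul]
    have h1 : algebraMap ℂ W ((((n + 1).factorial : ℕ) : ℂ)⁻¹) * ((n : W) + 1) =
        algebraMap ℂ W (((n.factorial : ℕ) : ℂ)⁻¹) := by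
      have h2 : ((n : W) + 1) = algebraMap ℂ W ((n : ℂ) + 1) := by simp
      have h3 : ((n : ℂ) + 1) ≠ 0 := by exact_mod_cast Nat.succ_ne_zero n
      have h4 : ((n.factorial : ℕ) : ℂ) ≠ 0 := Nat.cast_ne_zero.2 n.factorial_ne_zero
      rw [h2, ← map_mul, Nat.factorial_succ]
      congr 1
      push_cast
      field_simp
    rw [← h1]
    ring
  have h0 : (fun k => (ν k).eval 0) = μ := by
    funext k
    rw [← Polynomial.coeff_zero_eq_eval_zero, hco, pow_zero, ac_one]
    simp
  have h1 : (fun k => (ν k).eval 1) =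
      ac b (∑ k ∈ Finset.range m, ((k.factorial : ℂ)⁻¹) • N ^ k) μ := by
    funext k
    rw [ac_sum, Finset.sum_apply]
    simp only [hν, Polynomial.eval_finset_sum, Polynomial.eval_monomial, one_pow, mul_one]
    refine Finset.sum_congr rfl fun j _ => ?_
    rw [Pi.smul_apply, Algebra.smul_def]
  have hz : MvPolynomial.aeval ν P = 0 := by
    refine pre_zero fun j => ?_
    have h2 := pre_iter b _ N ν hd j P
    have h3 := pre_iter b D N μ hD j P
    rw [hP, Function.iterate_fixed (map_zero D)] at h3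
    have h4 : ⇑(Polynomial.derivative'.restrictScalars ℂ :
      Derivation ℂ (Polynomial W) (Polynomial W)) = ⇑(Polynomial.derivative (R := W)) := rfl
    rw [h4] at h2
    rw [h2, Polynomial.coeff_zero_eq_eval_zero, pre_eval, h0, ← h3]
  rw [← h1, ← pre_eval, hz, Polynomial.eval_zero]


end Vale.Agent.P292
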